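import Mathlib
import Vale.Agent.Helper8.KK.Defs

/-!
P064 (helper25 for helper8): elementary facts on the pairs (vertex set, edge set) of the
copies of a graph `F` in a graph `H`.
-/

namespace Vale.Agent.Helper8.KK

open Finset SimpleGraph

/-- Every element of `pairs H F` is the pair of an injective homomorphism. -/
theorem mem_pairs_iff {n v : ℕ} (H : SimpleGraph (Fin n)) (F : SimpleGraph (Fin v))
    (x : Finset (Fin n) × Finset (Sym2 (Fin n))) :
    x ∈ pairs H F ↔ ∃ f : Fin v → Fin n,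
      (Function.Injective f ∧ ∀ a b, F.Adj a b → H.Adj (f a) (f b)) ∧ pr F f = x := by
  classical
  unfold pairs
  simp only [Finset.mem_image, Finset.mem_filter, Finset.mem_univ, true_and]

theorem pr_fst {n v : ℕ} (F : SimpleGraph (Fin v)) (f : Fin v → Fin n) [DecidableEq (Fin n)] :
    (pr F f).1 = (Finset.univ : Finset (Fin v)).image f := by
  unfold pr
  ext x
  simp only [Finset.mem_image, Finset.mem_univ, true_and]

theorem pr_snd {n v : ℕ} (F : SimpleGraph (Fin v)) (f : Fin v → Fin n)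
    [DecidableEq (Sym2 (Fin n))] [Fintype F.edgeSet] :
    (pr F f).2 = F.edgeFinset.image (Sym2.map f) := by
  unfold pr
  ext x
  simp only [Finset.mem_image, mem_edgeFinset]

theorem mem_bd_iff {n : ℕ} (H : SimpleGraph (Fin n)) (τ : Finset (Fin n)) (z : Sym2 (Fin n)) :
    z ∈ bd H τ ↔ z ∈ H.edgeSet ∧ ∃ p ∈ τ, p ∈ z := by
  classical
  unfold bd
  simp only [Finset.mem_filter, mem_edgeFinset]

theorem pairs_card_fst {n v : ℕ} (H : SimpleGraph (Fin n)) (F : SimpleGraph (Fin v))
    (x : Finset (Fin n) × Finset (Sym2 (Fin n))) (hx : x ∈ pairs H F) : x.1.card = v := by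
  classical
  obtain ⟨f, ⟨hinj, -⟩, rfl⟩ := (mem_pairs_iff H F x).mp hx
  rw [pr_fst, Finset.card_image_of_injective _ hinj, Finset.card_univ, Fintype.card_fin]

theorem pairs_snd_subset {n v : ℕ} (H : SimpleGraph (Fin n)) (F : SimpleGraph (Fin v))
    (x : Finset (Fin n) × Finset (Sym2 (Fin n))) (hx : x ∈ pairs H F) : x.2 ⊆ bd H x.1 := by
  classical
  obtain ⟨f, ⟨-, hhom⟩, rfl⟩ := (mem_pairs_iff H F x).mp hx
  intro z hz
  rw [pr_snd, Finset.mem_image] at hz
  obtain ⟨w, hw, rfl⟩ := hz
  rw [mem_edgeFinset] at hw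
  induction w using Sym2.ind with
  | _ a b =>
    rw [mem_edgeSet] at hw
    rw [mem_bd_iff, Sym2.map_mk, mem_edgeSet]
    refine ⟨hhom a b hw, f a, ?_, Sym2.mem_mk_left _ _⟩
    rw [pr_fst]
    exact Finset.mem_image_of_mem f (Finset.mem_univ a)

theorem pairs_card_snd {n v : ℕ} (H : SimpleGraph (Fin n)) (F : SimpleGraph (Fin v))
    (x : Finset (Fin n) × Finset (Sym2 (Fin n))) (hx : x ∈ pairs H F) :
    x.2.card = F.edgeSet.ncard := by
  classical
  obtain ⟨f, ⟨hinj, -⟩, rfl⟩ := (mem_pairs_iff H F x).mp hx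
  rw [pr_snd, Finset.card_image_of_injective _ (Sym2.map.injective hinj),
    ← Set.ncard_coe_finset, coe_edgeFinset]

/-- The pairs with a given vertex set `τ` are determined by their edge sets, which are subsets
of `bd H τ`. -/
theorem card_fiber_le' {n v : ℕ} (H : SimpleGraph (Fin n)) (F : SimpleGraph (Fin v))
    (τ : Finset (Fin n)) (P : Finset (Finset (Fin n) × Finset (Sym2 (Fin n))))
    (hP : ∀ x ∈ P, x ∈ pairs H F ∧ x.1 = τ) : P.card ≤ 2 ^ (bd H τ).card := by
  classical
  rw [← Finset.card_powerset]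
  apply Finset.card_le_card_of_injOn (fun x => x.2)
  · intro x hx
    have h := hP x (Finset.mem_coe.mp hx)
    rw [Finset.mem_coe, Finset.mem_powerset, ← h.2]
    exact pairs_snd_subset H F x h.1
  · intro x hx y hy hxy
    have h1 := (hP x (Finset.mem_coe.mp hx)).2
    have h2 := (hP y (Finset.mem_coe.mp hy)).2
    exact Prod.ext (h1.trans h2.symm) hxy

theorem card_fiber_le {n v : ℕ} (H : SimpleGraph (Fin n)) (F : SimpleGraph (Fin v))
    (τ : Finset (Fin n)) [DecidableEq (Finset (Fin n))] :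
    ((pairs H F).filter (fun x => x.1 = τ)).card ≤ 2 ^ (bd H τ).card := by
  apply card_fiber_le' H F τ
  intro x hx
  rw [Finset.mem_filter] at hx
  exact hx

end Vale.Agent.Helper8.KK
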