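import Mathlib

/-!
# A finite minimax lemma (Hahn-Banach separation)

`exists_weights`: if a convex set `T` of real vectors indexed by a finite nonempty type has, in each
of its vectors, a coordinate that is `≤ 0`, then one fixed probability vector `p` satisfies
`∑ i, p i * v i ≤ 0` for all `v ∈ T`.

`exists_mixture`: the same for finitely many linear functionals `g i` on a real vector space and a
convex set `K` of test points: if every test point `y ∈ K` has some `i` with `g i y ≤ c`, then a
fixed mixture of the `g i` is `≤ c` on all of `K`.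
-/

namespace Vale.Agent.Helper25.Minimax

open Finset

theorem exists_weights {ι : Type*} [Fintype ι] [Nonempty ι] (T : Set (ι → ℝ)) (hT : Convex ℝ T)
    (h : ∀ v ∈ T, ∃ i, v i ≤ 0) :
    ∃ p : ι → ℝ, (∀ i, 0 ≤ p i) ∧ ∑ i, p i = 1 ∧ ∀ v ∈ T, ∑ i, p i * v i ≤ 0 := by
  classical
  rcases T.eq_empty_or_nonempty with hTe | ⟨v0, hv0⟩
  · refine ⟨fun _ => 1 / (Fintype.card ι : ℝ), fun i => by positivity, ?_, ?_⟩
    · simp
    · intro v hv; rw [hTe] at hv; exact absurd hv (Set.notMem_empty v)
  set s : Set (ι → ℝ) := {v | ∀ i, 0 < v i} with hs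
  have hs_open : IsOpen s := by
    have : s = ⋂ i, {v : ι → ℝ | 0 < v i} := by ext v; simp [hs]
    rw [this]
    exact isOpen_iInter_of_finite (fun i => isOpen_lt continuous_const (continuous_apply i))
  have hs_conv : Convex ℝ s := by
    intro x hx y hy a b ha hb hab i
    have hxi := hx i
    have hyi := hy i
    simp only [Pi.add_apply, Pi.smul_apply, smul_eq_mul]
    rcases ha.lt_or_eq with ha' | ha'
    · have : 0 < a * x i := mul_pos ha' hxi
      have : 0 ≤ b * y i := mul_nonneg hb hyi.le
      linarith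
    · have hb1 : b = 1 := by linarith
      rw [← ha', hb1]; simpa using hyi
  have hdisj : Disjoint s T := by
    rw [Set.disjoint_left]
    intro v hv hvT
    obtain ⟨i, hi⟩ := h v hvT
    exact absurd (hv i) (not_lt.mpr hi)
  obtain ⟨f, u, hfs, hfT⟩ := geometric_hahn_banach_open hs_conv hs_open hT hdisj
  set q : ι → ℝ := fun i => f (fun j => if i = j then 1 else 0) with hq
  have hrep : ∀ v : ι → ℝ, f v = ∑ i, q i * v i := by
    intro v
    have := LinearMap.pi_apply_eq_sum_univ (f : (ι → ℝ) →ₗ[ℝ] ℝ) v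
    simp only [ContinuousLinearMap.coe_coe, smul_eq_mul] at this
    rw [this]
    exact Finset.sum_congr rfl (fun i _ => by rw [hq]; ring)
  -- all coordinates of q are nonpositive
  have hq_nonpos : ∀ j, q j ≤ 0 := by
    intro j
    by_contra hj'
    have hj : 0 < q j := not_le.mp hj'
    set C : ℝ := ∑ i ∈ univ.erase j, q i with hC
    set t : ℝ := max 1 ((u - C) / q j) with ht
    have ht1 : 1 ≤ t := le_max_left _ _
    have ht2 : (u - C) / q j ≤ t := le_max_right _ _
    set v : ι → ℝ := fun i => if i = j then t else 1 with hv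
    have hvs : v ∈ s := by
      intro i
      by_cases hij : i = j
      · simp only [hv, hij, if_true]; linarith
      · simp only [hv, hij, if_false]; exact one_pos
    have hfv := hfs v hvs
    rw [hrep v] at hfv
    have hsum : ∑ i, q i * v i = q j * t + C := by
      rw [← Finset.add_sum_erase univ _ (mem_univ j)]
      congr 1
      · simp [hv]
      · rw [hC]
        refine Finset.sum_congr rfl (fun i hi => ?_)
        have hij : i ≠ j := (Finset.mem_erase.mp hi).1
        simp [hv, hij]
    rw [hsum] at hfv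
    have : u - C ≤ q j * t := by
      have := (div_le_iff₀ hj).mp ht2
      linarith
    linarith
  have hsum_nonpos : ∑ i, q i ≤ 0 := Finset.sum_nonpos (fun i _ => hq_nonpos i)
  -- u is nonnegative
  have hu : 0 ≤ u := by
    by_contra hneg'
    have hneg : u < 0 := not_le.mp hneg'
    rcases hsum_nonpos.lt_or_eq with hlt | heq
    · set ε : ℝ := u / ∑ i, q i with hε
      have hεpos : 0 < ε := div_pos_of_neg_of_neg hneg hlt
      have hvs : (fun _ : ι => ε) ∈ s := fun _ => hεpos
      have hfv := hfs _ hvs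
      rw [hrep] at hfv
      have : ∑ i, q i * ε = u := by
        rw [← Finset.sum_mul, hε]
        field_simp [hlt.ne]
      linarith
    · have hvs : (fun _ : ι => (1 : ℝ)) ∈ s := fun _ => one_pos
      have hfv := hfs _ hvs
      rw [hrep] at hfv
      simp only [mul_one] at hfv
      linarith
  -- the sum of q is negative
  have hsum_neg : ∑ i, q i < 0 := by
    have hvs : (fun _ : ι => (1 : ℝ)) ∈ s := fun _ => one_pos
    have hfv := hfs _ hvs
    rw [hrep] at hfv
    simp only [mul_one] at hfv
    rcases hsum_nonpos.lt_or_eq with hlt | heq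
    · exact hlt
    · exfalso
      -- then all q are zero, so f v0 = 0 < u ≤ f v0
      have hq0 : ∀ i, q i = 0 := by
        intro i
        have := (Finset.sum_eq_zero_iff_of_nonpos (fun i _ => hq_nonpos i)).mp heq i (mem_univ i)
        exact this
      have h1 := hfT v0 hv0
      rw [hrep] at h1
      have : ∑ i, q i * v0 i = 0 := Finset.sum_eq_zero (fun i _ => by rw [hq0 i]; ring)
      linarith
  refine ⟨fun i => q i / ∑ j, q j, fun i => div_nonneg_of_nonpos (hq_nonpos i) hsum_neg.le, ?_, ?_⟩
  · rw [← Finset.sum_div]; exact div_self hsum_neg.ne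
  · intro v hv
    have h1 := hfT v hv
    rw [hrep] at h1
    have h2 : ∑ i, q i / (∑ j, q j) * v i = (∑ i, q i * v i) / ∑ j, q j := by
      rw [Finset.sum_div]
      exact Finset.sum_congr rfl (fun i _ => by ring)
    rw [h2]
    exact div_nonpos_of_nonneg_of_nonpos (le_trans hu h1) hsum_neg.le

theorem exists_mixture {ι : Type*} [Fintype ι] [Nonempty ι] {E : Type*} [AddCommGroup E]
    [Module ℝ E] (K : Set E) (hK : Convex ℝ K) (g : ι → E →ₗ[ℝ] ℝ) (c : ℝ)
    (h : ∀ y ∈ K, ∃ i, g i y ≤ c) :
    ∃ p : ι → ℝ, (∀ i, 0 ≤ p i) ∧ ∑ i, p i = 1 ∧ ∀ y ∈ K, ∑ i, p i * g i y ≤ c := by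
  classical
  set T : Set (ι → ℝ) := (fun y => fun i => g i y - c) '' K with hT
  have hTconv : Convex ℝ T := by
    rintro _ ⟨x, hx, rfl⟩ _ ⟨y, hy, rfl⟩ a b ha hb hab
    refine ⟨a • x + b • y, hK hx hy ha hb hab, ?_⟩
    funext i
    simp only [Pi.add_apply, Pi.smul_apply, smul_eq_mul, map_add, map_smul]
    have : b = 1 - a := by linarith
    rw [this]; ring
  have hT0 : ∀ v ∈ T, ∃ i, v i ≤ 0 := by
    rintro _ ⟨y, hy, rfl⟩
    obtain ⟨i, hi⟩ := h y hy
    exact ⟨i, by simpa using hi⟩
  obtain ⟨p, hp0, hp1, hpT⟩ := exists_weights T hTconv hT0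
  refine ⟨p, hp0, hp1, fun y hy => ?_⟩
  have := hpT _ ⟨y, hy, rfl⟩
  have h2 : ∑ i, p i * (g i y - c) = ∑ i, p i * g i y - c := by
    simp only [mul_sub, Finset.sum_sub_distrib, ← Finset.sum_mul, hp1, one_mul]
  rw [h2] at this
  linarith

end Vale.Agent.Helper25.Minimax
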