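import Mathlib

/-!
P254 (helper25): the analytic core of the merging inequality for vertex-truncated simplices.

For all real `A, D >= 0`:
`cosh(4A+4D) - cosh(4A) <= D (sinh(7A+4D) + 4 sinh(3A) - 3 sinh(A)) + 4 D^2 cosh(2A)`.
The proof differentiates four times in `D`; the values at `D = 0` are polynomial
inequalities in `exp A >= 1`.
-/

namespace Vale.Agent.Helper25.StarWCore

open Real

/-- A function with nonnegative value at `0` and nonnegative derivative on `[0, inf)` is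
nonnegative on `[0, inf)`. -/
theorem nonneg_of_hasDerivAt (f f' : ℝ → ℝ) (h0 : 0 ≤ f 0)
    (hd : ∀ x, HasDerivAt f (f' x) x) (hf' : ∀ x, 0 ≤ x → 0 ≤ f' x) :
    ∀ x, 0 ≤ x → 0 ≤ f x := by
  intro x hx
  have hmono : MonotoneOn f (Set.Ici 0) := by
    apply monotoneOn_of_deriv_nonneg (convex_Ici 0)
    · exact (continuous_iff_continuousAt.mpr fun y => (hd y).continuousAt).continuousOn
    · exact fun y _ => (hd y).differentiableAt.differentiableWithinAt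
    · intro y hy
      rw [interior_Ici] at hy
      rw [(hd y).deriv]
      exact hf' y (le_of_lt hy)
  exact h0.trans (hmono (Set.mem_Ici.mpr le_rfl) (Set.mem_Ici.mpr hx) hx)

theorem hd_sinh (a b x : ℝ) :
    HasDerivAt (fun t => Real.sinh (a + b * t)) (b * Real.cosh (a + b * x)) x := by
  have h1 : HasDerivAt (fun t : ℝ => a + b * t) b x := by
    simpa using ((hasDerivAt_id x).const_mul b).const_add a
  have h2 := (Real.hasDerivAt_sinh (a + b * x)).comp x h1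
  exact h2.congr_deriv (by ring)

theorem hd_cosh (a b x : ℝ) :
    HasDerivAt (fun t => Real.cosh (a + b * t)) (b * Real.sinh (a + b * x)) x := by
  have h1 : HasDerivAt (fun t : ℝ => a + b * t) b x := by
    simpa using ((hasDerivAt_id x).const_mul b).const_add a
  have h2 := (Real.hasDerivAt_cosh (a + b * x)).comp x h1
  exact h2.congr_deriv (by ring)

/-- `t * sinh(a + b t)` -/
theorem hd_mul_sinh (a b x : ℝ) :
    HasDerivAt (fun t => t * Real.sinh (a + b * t))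
      (Real.sinh (a + b * x) + x * (b * Real.cosh (a + b * x))) x := by
  have h := (hasDerivAt_id' x).mul (hd_sinh a b x)
  exact h.congr_deriv (by ring)

/-- `t * cosh(a + b t)` -/
theorem hd_mul_cosh (a b x : ℝ) :
    HasDerivAt (fun t => t * Real.cosh (a + b * t))
      (Real.cosh (a + b * x) + x * (b * Real.sinh (a + b * x))) x := by
  have h := (hasDerivAt_id' x).mul (hd_cosh a b x)
  exact h.congr_deriv (by ring)

theorem exp_nat (A : ℝ) (k : ℕ) : Real.exp ((k : ℝ) * A) = Real.exp A ^ k :=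
  Real.exp_nat_mul A k

theorem sinh_nat (A : ℝ) (k : ℕ) :
    Real.sinh ((k : ℝ) * A) = (Real.exp A ^ k - (Real.exp A ^ k)⁻¹) / 2 := by
  rw [Real.sinh_eq, Real.exp_neg, exp_nat]

theorem cosh_nat (A : ℝ) (k : ℕ) :
    Real.cosh ((k : ℝ) * A) = (Real.exp A ^ k + (Real.exp A ^ k)⁻¹) / 2 := by
  rw [Real.cosh_eq, Real.exp_neg, exp_nat]

/-- `3 sinh(7A) >= 4 sinh(4A)` for `A >= 0`. -/
theorem init3 (A : ℝ) (hA : 0 ≤ A) : 0 ≤ 3 * Real.sinh (7 * A) - 4 * Real.sinh (4 * A) := by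
  have h7 := sinh_nat A 7
  have h4 := sinh_nat A 4
  norm_num at h7 h4
  rw [h7, h4]
  have he1 : 1 ≤ Real.exp A := Real.one_le_exp hA
  obtain ⟨t, ht, het⟩ : ∃ t : ℝ, 0 ≤ t ∧ Real.exp A = 1 + t :=
    ⟨Real.exp A - 1, by linarith, by ring⟩
  rw [het]
  have hpos : (0 : ℝ) < 1 + t := by linarith
  have key : 3 * (((1 + t) ^ 7 - ((1 + t) ^ 7)⁻¹) / 2) - 4 * (((1 + t) ^ 4 - ((1 + t) ^ 4)⁻¹) / 2)
      = (10 * t + 65 * t ^ 2 + 436 * t ^ 3 + 1683 * t ^ 4 + 4158 * t ^ 5 + 7161 * t ^ 6 + 8976 * t ^ 7 + 8349 * t ^ 8 + 5786 * t ^ 9 + 2959 * t ^ 10 + 1088 * t ^ 11 + 273 * t ^ 12 + 42 * t ^ 13 + 3 * t ^ 14) / (2 * (1 + t) ^ 7) := by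
    field_simp
    ring
  rw [key]
  positivity

/-- `cosh(7A) + cosh(2A) >= 2 cosh(4A)` for `A >= 0`. -/
theorem init2 (A : ℝ) (hA : 0 ≤ A) :
    0 ≤ Real.cosh (7 * A) + Real.cosh (2 * A) - 2 * Real.cosh (4 * A) := by
  have h7 := cosh_nat A 7
  have h4 := cosh_nat A 4
  have h2 := cosh_nat A 2
  norm_num at h7 h4 h2
  rw [h7, h4, h2]
  have he1 : 1 ≤ Real.exp A := Real.one_le_exp hA
  obtain ⟨t, ht, het⟩ : ∃ t : ℝ, 0 ≤ t ∧ Real.exp A = 1 + t :=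
    ⟨Real.exp A - 1, by linarith, by ring⟩
  rw [het]
  have hpos : (0 : ℝ) < 1 + t := by linarith
  have key : ((1 + t) ^ 7 + ((1 + t) ^ 7)⁻¹) / 2 + ((1 + t) ^ 2 + ((1 + t) ^ 2)⁻¹) / 2
        - 2 * (((1 + t) ^ 4 + ((1 + t) ^ 4)⁻¹) / 2)
      = (21 * t ^ 2 + 126 * t ^ 3 + 472 * t ^ 4 + 1205 * t ^ 5 + 2163 * t ^ 6 + 2808 * t ^ 7 + 2682 * t ^ 8 + 1893 * t ^ 9 + 979 * t ^ 10 + 362 * t ^ 11 + 91 * t ^ 12 + 14 * t ^ 13 + 1 * t ^ 14) / (2 * (1 + t) ^ 7) := by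
    field_simp
    ring
  rw [key]
  positivity

/-- `sinh(7A) + 4 sinh(3A) - 3 sinh(A) >= 4 sinh(4A)` for `A >= 0`. -/
theorem init1 (A : ℝ) (hA : 0 ≤ A) :
    0 ≤ Real.sinh (7 * A) + (4 * Real.sinh (3 * A) - 3 * Real.sinh A) - 4 * Real.sinh (4 * A) := by
  have h7 := sinh_nat A 7
  have h4 := sinh_nat A 4
  have h3 := sinh_nat A 3
  have h1 := sinh_nat A 1
  norm_num at h7 h4 h3 h1
  rw [h7, h4, h3, h1]
  have he1 : 1 ≤ Real.exp A := Real.one_le_exp hA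
  obtain ⟨t, ht, het⟩ : ∃ t : ℝ, 0 ≤ t ∧ Real.exp A = 1 + t :=
    ⟨Real.exp A - 1, by linarith, by ring⟩
  rw [het]
  have hpos : (0 : ℝ) < 1 + t := by linarith
  have key : ((1 + t) ^ 7 - ((1 + t) ^ 7)⁻¹) / 2
        + (4 * (((1 + t) ^ 3 - ((1 + t) ^ 3)⁻¹) / 2) - 3 * (((1 + t) - (1 + t)⁻¹) / 2))
        - 4 * (((1 + t) ^ 4 - ((1 + t) ^ 4)⁻¹) / 2)
      = (64 * t ^ 3 + 352 * t ^ 4 + 1012 * t ^ 5 + 1914 * t ^ 6 + 2568 * t ^ 7 + 2520 * t ^ 8 + 1822 * t ^ 9 + 961 * t ^ 10 + 360 * t ^ 11 + 91 * t ^ 12 + 14 * t ^ 13 + 1 * t ^ 14) / (2 * (1 + t) ^ 7) := by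
    field_simp
    ring
  rw [key]
  positivity

noncomputable def G4 (A t : ℝ) : ℝ :=
  256 * Real.cosh (7 * A + 4 * t) + 256 * (t * Real.sinh (7 * A + 4 * t))
    - 256 * Real.cosh (4 * A + 4 * t)

noncomputable def G3 (A t : ℝ) : ℝ :=
  48 * Real.sinh (7 * A + 4 * t) + 64 * (t * Real.cosh (7 * A + 4 * t))
    - 64 * Real.sinh (4 * A + 4 * t)

noncomputable def G2 (A t : ℝ) : ℝ :=
  8 * Real.cosh (7 * A + 4 * t) + 16 * (t * Real.sinh (7 * A + 4 * t))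
    + 8 * Real.cosh (2 * A) - 16 * Real.cosh (4 * A + 4 * t)

noncomputable def G1 (A t : ℝ) : ℝ :=
  Real.sinh (7 * A + 4 * t) + 4 * (t * Real.cosh (7 * A + 4 * t))
    + (4 * Real.sinh (3 * A) - 3 * Real.sinh A) + 8 * Real.cosh (2 * A) * t
    - 4 * Real.sinh (4 * A + 4 * t)

noncomputable def G0 (A t : ℝ) : ℝ :=
  t * Real.sinh (7 * A + 4 * t) + (4 * Real.sinh (3 * A) - 3 * Real.sinh A) * t
    + 4 * Real.cosh (2 * A) * t ^ 2 - Real.cosh (4 * A + 4 * t) + Real.cosh (4 * A)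

theorem G4_nonneg (A t : ℝ) (hA : 0 ≤ A) (ht : 0 ≤ t) : 0 ≤ G4 A t := by
  unfold G4
  have h1 : Real.cosh (4 * A + 4 * t) ≤ Real.cosh (7 * A + 4 * t) := by
    rw [Real.cosh_le_cosh, abs_of_nonneg (by positivity), abs_of_nonneg (by positivity)]
    linarith
  have h2 : 0 ≤ Real.sinh (7 * A + 4 * t) := Real.sinh_nonneg_iff.mpr (by positivity)
  have h3 : 0 ≤ t * Real.sinh (7 * A + 4 * t) := mul_nonneg ht h2
  linarith

theorem hd_G3 (A x : ℝ) : HasDerivAt (G3 A) (G4 A x) x := by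
  have h1 := (hd_sinh (7 * A) 4 x).const_mul 48
  have h2 := (hd_mul_cosh (7 * A) 4 x).const_mul 64
  have h3 := (hd_sinh (4 * A) 4 x).const_mul 64
  have h := (h1.add h2).sub h3
  refine HasDerivAt.congr_deriv (f := G3 A) h ?_
  unfold G4
  ring

theorem hd_G2 (A x : ℝ) : HasDerivAt (G2 A) (G3 A x) x := by
  have h1 := (hd_cosh (7 * A) 4 x).const_mul 8
  have h2 := (hd_mul_sinh (7 * A) 4 x).const_mul 16
  have h3 := (hd_cosh (4 * A) 4 x).const_mul 16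
  have h := ((h1.add h2).add_const (8 * Real.cosh (2 * A))).sub h3
  refine HasDerivAt.congr_deriv (f := G2 A) h ?_
  unfold G3
  ring

theorem hd_G1 (A x : ℝ) : HasDerivAt (G1 A) (G2 A x) x := by
  have h1 := hd_sinh (7 * A) 4 x
  have h2 := (hd_mul_cosh (7 * A) 4 x).const_mul 4
  have h3 := (hasDerivAt_id' x).const_mul (8 * Real.cosh (2 * A))
  have h4 := (hd_sinh (4 * A) 4 x).const_mul 4
  have h := ((((h1.add h2).add_const (4 * Real.sinh (3 * A) - 3 * Real.sinh A)).add h3).sub h4)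
  refine HasDerivAt.congr_deriv (f := G1 A) h ?_
  unfold G2
  ring

theorem hd_G0 (A x : ℝ) : HasDerivAt (G0 A) (G1 A x) x := by
  have h1 := hd_mul_sinh (7 * A) 4 x
  have h2 := (hasDerivAt_id' x).const_mul (4 * Real.sinh (3 * A) - 3 * Real.sinh A)
  have h3 := ((hasDerivAt_id' x).pow 2).const_mul (4 * Real.cosh (2 * A))
  have h4 := hd_cosh (4 * A) 4 x
  have h := ((((h1.add h2).add h3).sub h4).add_const (Real.cosh (4 * A)))
  refine HasDerivAt.congr_deriv (f := G0 A) h ?_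
  unfold G1
  ring

theorem G3_nonneg (A t : ℝ) (hA : 0 ≤ A) (ht : 0 ≤ t) : 0 ≤ G3 A t := by
  refine nonneg_of_hasDerivAt (G3 A) (G4 A) ?_ (hd_G3 A) (fun x hx => G4_nonneg A x hA hx) t ht
  unfold G3
  have h := init3 A hA
  simp only [mul_zero, add_zero, zero_mul]
  linarith

theorem G2_nonneg (A t : ℝ) (hA : 0 ≤ A) (ht : 0 ≤ t) : 0 ≤ G2 A t := by
  refine nonneg_of_hasDerivAt (G2 A) (G3 A) ?_ (hd_G2 A) (fun x hx => G3_nonneg A x hA hx) t ht
  unfold G2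
  have h := init2 A hA
  simp only [mul_zero, add_zero, zero_mul]
  linarith

theorem G1_nonneg (A t : ℝ) (hA : 0 ≤ A) (ht : 0 ≤ t) : 0 ≤ G1 A t := by
  refine nonneg_of_hasDerivAt (G1 A) (G2 A) ?_ (hd_G1 A) (fun x hx => G2_nonneg A x hA hx) t ht
  unfold G1
  have h := init1 A hA
  simp only [mul_zero, add_zero, zero_mul]
  linarith

theorem G0_nonneg (A t : ℝ) (hA : 0 ≤ A) (ht : 0 ≤ t) : 0 ≤ G0 A t := by
  refine nonneg_of_hasDerivAt (G0 A) (G1 A) ?_ (hd_G0 A) (fun x hx => G1_nonneg A x hA hx) t ht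
  unfold G0
  simp

/-- **The hyperbolic inequality.** For `A, D >= 0`:
`cosh(4A+4D) - cosh(4A) <= D (sinh(7A+4D) + 4 sinh(3A) - 3 sinh(A)) + 4 D^2 cosh(2A)`. -/
theorem hyperbolic (A D : ℝ) (hA : 0 ≤ A) (hD : 0 ≤ D) :
    Real.cosh (4 * A + 4 * D) - Real.cosh (4 * A)
      ≤ D * (Real.sinh (7 * A + 4 * D) + 4 * Real.sinh (3 * A) - 3 * Real.sinh A)
        + 4 * D ^ 2 * Real.cosh (2 * A) := by
  have h := G0_nonneg A D hA hD
  unfold G0 at h
  linarith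

end Vale.Agent.Helper25.StarWCore
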