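import Mathlib
import Vale.Agent.Helper25.StarWCore

/-!
P254 (helper25): the merging inequality `(starW)` for vertex-truncated simplices.

`c` in `(0,1]`, finitely many `a k` in `[sqrt c, 1]`, `P = prod a k`, `p = c P`,
`S0 = sum (1 - a k)/(1 - p (a k)^2)`, `S1 = sum a k (1 - a k)/(1 - p (a k)^2)`.  Then
`4 c (1 - P) <= (1 - p c)(S0 + p S1) + (1 + c) p (4 (S0 - S1) + S0^2 - p S1^2)`.
-/

namespace Vale.Agent.Helper25.StarW

open Real Finset

/-- The expression left after the number of variables has disappeared, in the variables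
`w = c^(1/4)`, `r = P^(1/4)`. -/
noncomputable def E0 (w r : ℝ) : ℝ :=
  (1 - w ^ 8 * r ^ 4) * (1 + w ^ 2 * r ^ 2)
      * (2 * (1 + w ^ 2 * r ^ 2) + 4 * (-Real.log r) * w ^ 3 * r ^ 2 / (1 - w ^ 4 * r ^ 2))
    - (2 * (1 - w ^ 2 * r ^ 2) - 4 * (-Real.log r) * w ^ 3 * r ^ 2 / (1 + w ^ 4 * r ^ 2))
      * ((1 - w ^ 8 * r ^ 4) * (1 - w ^ 2 * r ^ 2)
        + 2 * (w ^ 2 * r ^ 2) * (1 + w ^ 4)
          * (2 * (1 + w ^ 2 * r ^ 2)
            + 4 * (-Real.log r) * w ^ 3 * r ^ 2 / (1 - w ^ 4 * r ^ 2)))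

theorem reduced (w r : ℝ) (hw0 : 0 < w) (hw1 : w ≤ 1) (hr0 : 0 < r) (hr1 : r ≤ 1)
    (hlt : w ^ 4 * r ^ 2 < 1) : 0 ≤ E0 w r := by
  unfold E0
  set D := -Real.log r with hD
  set A := -Real.log w with hA
  have hD0 : 0 ≤ D := by
    rw [hD]
    have := Real.log_nonpos hr0.le hr1
    linarith
  have hA0 : 0 ≤ A := by
    rw [hA]
    have := Real.log_nonpos hw0.le hw1
    linarith
  have heA : Real.exp A = w⁻¹ := by rw [hA, Real.exp_neg, Real.exp_log hw0]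
  have heD : Real.exp D = r⁻¹ := by rw [hD, Real.exp_neg, Real.exp_log hr0]
  have hT := Vale.Agent.Helper25.StarWCore.hyperbolic A D hA0 hD0
  -- all hyperbolic functions in terms of `w` and `r`
  have e74 : Real.exp (7 * A + 4 * D) = (w ^ 7 * r ^ 4)⁻¹ := by
    have h7 := Vale.Agent.Helper25.StarWCore.exp_nat A 7
    have h4 := Vale.Agent.Helper25.StarWCore.exp_nat D 4
    norm_num at h7 h4
    rw [Real.exp_add, h7, h4, heA, heD, mul_inv, inv_pow, inv_pow]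
  have e44 : Real.exp (4 * A + 4 * D) = (w ^ 4 * r ^ 4)⁻¹ := by
    have h7 := Vale.Agent.Helper25.StarWCore.exp_nat A 4
    have h4 := Vale.Agent.Helper25.StarWCore.exp_nat D 4
    norm_num at h7 h4
    rw [Real.exp_add, h7, h4, heA, heD, mul_inv, inv_pow, inv_pow]
  have s74 : Real.sinh (7 * A + 4 * D) = ((w ^ 7 * r ^ 4)⁻¹ - w ^ 7 * r ^ 4) / 2 := by
    rw [Real.sinh_eq, Real.exp_neg (7 * A + 4 * D), e74, inv_inv]
  have c44 : Real.cosh (4 * A + 4 * D) = ((w ^ 4 * r ^ 4)⁻¹ + w ^ 4 * r ^ 4) / 2 := by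
    rw [Real.cosh_eq, Real.exp_neg (4 * A + 4 * D), e44, inv_inv]
  have s3 : Real.sinh (3 * A) = ((w ^ 3)⁻¹ - w ^ 3) / 2 := by
    have h := Vale.Agent.Helper25.StarWCore.sinh_nat A 3
    norm_num at h
    rw [h, heA, inv_pow, inv_inv]
  have s1 : Real.sinh A = (w⁻¹ - w) / 2 := by
    rw [Real.sinh_eq, Real.exp_neg A, heA, inv_inv]
  have c2 : Real.cosh (2 * A) = ((w ^ 2)⁻¹ + w ^ 2) / 2 := by
    have h := Vale.Agent.Helper25.StarWCore.cosh_nat A 2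
    norm_num at h
    rw [h, heA, inv_pow, inv_inv]
  have c4 : Real.cosh (4 * A) = ((w ^ 4)⁻¹ + w ^ 4) / 2 := by
    have h := Vale.Agent.Helper25.StarWCore.cosh_nat A 4
    norm_num at h
    rw [h, heA, inv_pow, inv_inv]
  rw [s74, c44, s3, s1, c2, c4] at hT
  have hG : 0 ≤ D * (((w ^ 7 * r ^ 4)⁻¹ - w ^ 7 * r ^ 4) / 2 + 4 * (((w ^ 3)⁻¹ - w ^ 3) / 2)
        - 3 * ((w⁻¹ - w) / 2)) + 4 * D ^ 2 * (((w ^ 2)⁻¹ + w ^ 2) / 2)
        - (((w ^ 4 * r ^ 4)⁻¹ + w ^ 4 * r ^ 4) / 2 - ((w ^ 4)⁻¹ + w ^ 4) / 2) := by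
    linarith
  have h1 : (0 : ℝ) < 1 - w ^ 4 * r ^ 2 := by linarith
  have h2 : (0 : ℝ) < 1 + w ^ 4 * r ^ 2 := by positivity
  have h8 : w ^ 8 * r ^ 4 < 1 := by
    have : w ^ 8 * r ^ 4 = (w ^ 4 * r ^ 2) ^ 2 := by ring
    rw [this]
    have h0 : (0 : ℝ) ≤ w ^ 4 * r ^ 2 := by positivity
    nlinarith
  have h3 : (0 : ℝ) < 1 - w ^ 8 * r ^ 4 := by linarith
  -- the identity `E0 * (1 - w^8 r^4) = 16 w^10 r^6 * Gamma`
  have key : ((1 - w ^ 8 * r ^ 4) * (1 + w ^ 2 * r ^ 2)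
          * (2 * (1 + w ^ 2 * r ^ 2) + 4 * D * w ^ 3 * r ^ 2 / (1 - w ^ 4 * r ^ 2))
        - (2 * (1 - w ^ 2 * r ^ 2) - 4 * D * w ^ 3 * r ^ 2 / (1 + w ^ 4 * r ^ 2))
          * ((1 - w ^ 8 * r ^ 4) * (1 - w ^ 2 * r ^ 2)
            + 2 * (w ^ 2 * r ^ 2) * (1 + w ^ 4)
              * (2 * (1 + w ^ 2 * r ^ 2)
                + 4 * D * w ^ 3 * r ^ 2 / (1 - w ^ 4 * r ^ 2)))) * (1 - w ^ 8 * r ^ 4)
      = 16 * w ^ 10 * r ^ 6 * (D * (((w ^ 7 * r ^ 4)⁻¹ - w ^ 7 * r ^ 4) / 2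
          + 4 * (((w ^ 3)⁻¹ - w ^ 3) / 2)
        - 3 * ((w⁻¹ - w) / 2)) + 4 * D ^ 2 * (((w ^ 2)⁻¹ + w ^ 2) / 2)
        - (((w ^ 4 * r ^ 4)⁻¹ + w ^ 4 * r ^ 4) / 2 - ((w ^ 4)⁻¹ + w ^ 4) / 2)) := by
    have hw : w ≠ 0 := hw0.ne'
    have hr : r ≠ 0 := hr0.ne'
    have h1' := h1.ne'
    have h2' := h2.ne'
    field_simp
    ring
  have hpos : 0 ≤ 16 * w ^ 10 * r ^ 6 * (D * (((w ^ 7 * r ^ 4)⁻¹ - w ^ 7 * r ^ 4) / 2
          + 4 * (((w ^ 3)⁻¹ - w ^ 3) / 2)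
        - 3 * ((w⁻¹ - w) / 2)) + 4 * D ^ 2 * (((w ^ 2)⁻¹ + w ^ 2) / 2)
        - (((w ^ 4 * r ^ 4)⁻¹ + w ^ 4 * r ^ 4) / 2 - ((w ^ 4)⁻¹ + w ^ 4) / 2)) :=
    mul_nonneg (by positivity) hG
  rw [← key] at hpos
  exact nonneg_of_mul_nonneg_left hpos h3

/-- Lower bounds for one variable `x` in `[w^2, 1]`:
`q (1-x)/(1 + q x) >= q w log(1/x)/(1 + q w^2)` and the same with minus signs. -/
theorem term_bounds (q w x : ℝ) (hq0 : 0 < q) (hq1 : q < 1) (hw0 : 0 < w) (hw1 : w ≤ 1)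
    (hx : w ^ 2 ≤ x) (hx1 : x ≤ 1) :
    q * w * (-Real.log x) / (1 + q * w ^ 2) ≤ q * (1 - x) / (1 + q * x) ∧
    q * w * (-Real.log x) / (1 - q * w ^ 2) ≤ q * (1 - x) / (1 - q * x) := by
  have hx0 : 0 < x := lt_of_lt_of_le (by positivity) hx
  obtain ⟨y, hy0, hyy⟩ : ∃ y : ℝ, 0 < y ∧ y ^ 2 = x :=
    ⟨Real.sqrt x, Real.sqrt_pos.mpr hx0, Real.sq_sqrt hx0.le⟩
  have hwy : w ≤ y := by
    by_contra hlt
    rw [not_le] at hlt
    have : y ^ 2 < w ^ 2 := by nlinarith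
    linarith
  have hy1 : y ≤ 1 := by
    by_contra hlt
    rw [not_le] at hlt
    have : 1 < y ^ 2 := by nlinarith
    linarith
  have hlog : -Real.log x = 2 * (-Real.log y) := by
    rw [← hyy, Real.log_pow]
    push_cast
    ring
  obtain ⟨h, hh⟩ : ∃ h : ℝ, h = -Real.log y := ⟨_, rfl⟩
  have hh0 : 0 ≤ h := by
    have := Real.log_nonpos hy0.le hy1
    linarith
  have hsinh : h ≤ Real.sinh h := Real.self_le_sinh_iff.mpr hh0
  have hexp : Real.exp h = y⁻¹ := by rw [hh, Real.exp_neg, Real.exp_log hy0]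
  have hsinh' : Real.sinh h = (y⁻¹ - y) / 2 := by
    rw [Real.sinh_eq, Real.exp_neg h, hexp, inv_inv]
  have hkey : y * (2 * h) ≤ 1 - x := by
    have h2 : 2 * h ≤ y⁻¹ - y := by linarith
    calc y * (2 * h) ≤ y * (y⁻¹ - y) := mul_le_mul_of_nonneg_left h2 hy0.le
      _ = 1 - y ^ 2 := by field_simp
      _ = 1 - x := by rw [hyy]
  have hw2 : w ^ 2 ≤ 1 := by nlinarith
  have hqx : q * x < 1 := by nlinarith
  have hqw : q * w ^ 2 < 1 := by nlinarith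
  have hqwy : q * (w * y) ≤ 1 := by
    have h1 : w * y ≤ 1 := by nlinarith
    have h2 : 0 ≤ w * y := by positivity
    nlinarith
  have hd1 : 0 < 1 - q * x := by linarith
  have hd2 : 0 < 1 - q * w ^ 2 := by linarith
  have hqh : 0 ≤ q * (2 * h) := by positivity
  rw [hlog, ← hh]
  constructor
  · rw [div_le_div_iff₀ (by positivity) (by positivity)]
    have h1 : w * (1 + q * x) ≤ y * (1 + q * w ^ 2) := by
      rw [← hyy]
      nlinarith [mul_nonneg (sub_nonneg.mpr hwy) (sub_nonneg.mpr hqwy)]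
    calc q * w * (2 * h) * (1 + q * x) = q * (2 * h) * (w * (1 + q * x)) := by ring
      _ ≤ q * (2 * h) * (y * (1 + q * w ^ 2)) := mul_le_mul_of_nonneg_left h1 hqh
      _ = q * (y * (2 * h)) * (1 + q * w ^ 2) := by ring
      _ ≤ q * (1 - x) * (1 + q * w ^ 2) := by
          apply mul_le_mul_of_nonneg_right _ (by positivity)
          exact mul_le_mul_of_nonneg_left hkey hq0.le
  · rw [div_le_div_iff₀ hd2 hd1]
    have h1 : w * (1 - q * x) ≤ y * (1 - q * w ^ 2) := by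
      rw [← hyy]
      have h3 : 0 ≤ q * (w * y) := by positivity
      nlinarith [mul_nonneg (sub_nonneg.mpr hwy) (by linarith : (0 : ℝ) ≤ 1 + q * (w * y))]
    calc q * w * (2 * h) * (1 - q * x) = q * (2 * h) * (w * (1 - q * x)) := by ring
      _ ≤ q * (2 * h) * (y * (1 - q * w ^ 2)) := mul_le_mul_of_nonneg_left h1 hqh
      _ = q * (y * (2 * h)) * (1 - q * w ^ 2) := by ring
      _ ≤ q * (1 - x) * (1 - q * w ^ 2) := by
          apply mul_le_mul_of_nonneg_right _ hd2.le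
          exact mul_le_mul_of_nonneg_left hkey hq0.le

/-- The sums `S0`, `S1` in terms of `S = sum q(1-a)/(1+qa)` and `T = sum q(1-a)/(1-qa)`. -/
theorem sum_identities {ι : Type*} (s : Finset ι) (a : ι → ℝ) (q p : ℝ) (hq0 : 0 < q)
    (hqq : q ^ 2 = p) (hak0 : ∀ k ∈ s, 0 < a k) (hqa : ∀ k ∈ s, q * a k < 1) :
    (∑ k ∈ s, (1 - a k) / (1 - p * a k ^ 2)
        = ((∑ k ∈ s, q * (1 - a k) / (1 + q * a k))
            + (∑ k ∈ s, q * (1 - a k) / (1 - q * a k))) / (2 * q)) ∧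
    (∑ k ∈ s, a k * (1 - a k) / (1 - p * a k ^ 2)
        = ((∑ k ∈ s, q * (1 - a k) / (1 - q * a k))
            - (∑ k ∈ s, q * (1 - a k) / (1 + q * a k))) / (2 * q ^ 2)) := by
  constructor
  · rw [← Finset.sum_add_distrib, Finset.sum_div]
    apply Finset.sum_congr rfl
    intro k hk
    have h1 : 0 < 1 - q * a k := by linarith [hqa k hk]
    have h2 : 0 < 1 + q * a k := by
      have := hak0 k hk
      positivity
    have h3 : 1 - p * a k ^ 2 = (1 - q * a k) * (1 + q * a k) := by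
      rw [← hqq]
      ring
    have h1' : 1 - q * a k ≠ 0 := h1.ne'
    have h2' : 1 + q * a k ≠ 0 := h2.ne'
    have hq' : q ≠ 0 := hq0.ne'
    rw [h3, div_add_div _ _ h2' h1', div_div, div_eq_div_iff (mul_ne_zero h1' h2')
      (mul_ne_zero (mul_ne_zero h2' h1') (mul_ne_zero two_ne_zero hq'))]
    ring
  · rw [← Finset.sum_sub_distrib, Finset.sum_div]
    apply Finset.sum_congr rfl
    intro k hk
    have h1 : 0 < 1 - q * a k := by linarith [hqa k hk]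
    have h2 : 0 < 1 + q * a k := by
      have := hak0 k hk
      positivity
    have h3 : 1 - p * a k ^ 2 = (1 - q * a k) * (1 + q * a k) := by
      rw [← hqq]
      ring
    have h1' : 1 - q * a k ≠ 0 := h1.ne'
    have h2' : 1 + q * a k ≠ 0 := h2.ne'
    have hq' : q ≠ 0 := hq0.ne'
    rw [h3, div_sub_div _ _ h1' h2', div_div, div_eq_div_iff (mul_ne_zero h1' h2')
      (mul_ne_zero (mul_ne_zero h1' h2') (mul_ne_zero two_ne_zero (pow_ne_zero 2 hq')))]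
    ring

/-- The exact identity behind `(starW)`: with `c = w^4`, `p = q^2`, `P = q^2 / w^4`. -/
theorem ident (w q S T : ℝ) (hw0 : 0 < w) (hq0 : 0 < q) :
    (1 - q ^ 2 * w ^ 4) * ((S + T) / (2 * q) + q ^ 2 * ((T - S) / (2 * q ^ 2)))
      + (1 + w ^ 4) * q ^ 2 * (4 * ((S + T) / (2 * q) - (T - S) / (2 * q ^ 2))
          + ((S + T) / (2 * q)) ^ 2 - q ^ 2 * ((T - S) / (2 * q ^ 2)) ^ 2)
      - 4 * w ^ 4 * (1 - q ^ 2 / w ^ 4)
      = ((1 - q ^ 2 * w ^ 4) * (1 + q) * (2 * (1 + q) + T)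
          - (2 * (1 - q) - S) * ((1 - q ^ 2 * w ^ 4) * (1 - q)
              + 2 * q * (1 + w ^ 4) * (2 * (1 + q) + T))) / (2 * q) := by
  have hw : w ≠ 0 := hw0.ne'
  have hq : q ≠ 0 := hq0.ne'
  field_simp
  ring

/-- Monotonicity step: the inequality at the lower bounds gives the inequality. -/
theorem mono_step (al be ga X Y X0 Y0 : ℝ) (_hal : 0 < al) (hbe : 0 < be) (hga : 0 < ga)
    (hX : 0 < X) (hXX0 : X ≤ X0) (hY0 : 0 < Y0) (hYY0 : Y0 ≤ Y)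
    (hE0 : 0 ≤ al * Y0 - X0 * (be + ga * Y0)) :
    0 ≤ al * Y - X * (be + ga * Y) := by
  have hYpos : 0 < Y := lt_of_lt_of_le hY0 hYY0
  have hX0pos : 0 < X0 := lt_of_lt_of_le hX hXX0
  have h1 : X0 * (be + ga * Y0) ≤ al * Y0 := by linarith
  have e1 : X * Y0 ≤ X0 * Y := mul_le_mul hXX0 hYY0 hY0.le hX0pos.le
  have e2 : X * (Y * Y0) ≤ X0 * (Y * Y0) :=
    mul_le_mul_of_nonneg_right hXX0 (by positivity)
  have h2 : X * (be + ga * Y) * Y0 ≤ X0 * (be + ga * Y0) * Y := by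
    have e1' : be * (X * Y0) ≤ be * (X0 * Y) := mul_le_mul_of_nonneg_left e1 hbe.le
    have e2' : ga * (X * (Y * Y0)) ≤ ga * (X0 * (Y * Y0)) := mul_le_mul_of_nonneg_left e2 hga.le
    calc X * (be + ga * Y) * Y0 = be * (X * Y0) + ga * (X * (Y * Y0)) := by ring
      _ ≤ be * (X0 * Y) + ga * (X0 * (Y * Y0)) := add_le_add e1' e2'
      _ = X0 * (be + ga * Y0) * Y := by ring
  have h3 : X0 * (be + ga * Y0) * Y ≤ al * Y0 * Y := mul_le_mul_of_nonneg_right h1 hYpos.le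
  have h4 : X * (be + ga * Y) * Y0 ≤ (al * Y) * Y0 := by
    calc X * (be + ga * Y) * Y0 ≤ X0 * (be + ga * Y0) * Y := h2
      _ ≤ al * Y0 * Y := h3
      _ = (al * Y) * Y0 := by ring
  have h5 : X * (be + ga * Y) ≤ al * Y := le_of_mul_le_mul_right h4 hY0
  linarith

/-- Lower bounds for `S` and `T` in terms of `log (1/P) = 4 log (1/r)` only. -/
theorem lower_bounds {ι : Type*} (s : Finset ι) (a : ι → ℝ) (q w r : ℝ) (hq0 : 0 < q)
    (hq1 : q < 1) (hw0 : 0 < w) (hw1 : w ≤ 1) (_hr0 : 0 < r)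
    (ha : ∀ k ∈ s, w ^ 2 ≤ a k ∧ a k ≤ 1) (hP : ∏ k ∈ s, a k = r ^ 4) :
    q * w * (4 * (-Real.log r)) / (1 + q * w ^ 2) ≤ ∑ k ∈ s, q * (1 - a k) / (1 + q * a k) ∧
    q * w * (4 * (-Real.log r)) / (1 - q * w ^ 2) ≤ ∑ k ∈ s, q * (1 - a k) / (1 - q * a k) := by
  have hak0 : ∀ k ∈ s, 0 < a k := fun k hk => lt_of_lt_of_le (by positivity) (ha k hk).1
  have hL : ∑ k ∈ s, (-Real.log (a k)) = 4 * (-Real.log r) := by
    rw [Finset.sum_neg_distrib, ← Real.log_prod (fun k hk => (hak0 k hk).ne'), hP,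
      Real.log_pow]
    push_cast
    ring
  have hb := fun k (hk : k ∈ s) =>
    term_bounds q w (a k) hq0 hq1 hw0 hw1 (ha k hk).1 (ha k hk).2
  constructor
  · rw [← hL, Finset.mul_sum, Finset.sum_div]
    exact Finset.sum_le_sum (fun k hk => (hb k hk).1)
  · rw [← hL, Finset.mul_sum, Finset.sum_div]
    exact Finset.sum_le_sum (fun k hk => (hb k hk).2)

/-- The core inequality in the variables `S`, `T`. -/
theorem core_ST {ι : Type*} (s : Finset ι) (a : ι → ℝ) (w r q S T : ℝ) (hw0 : 0 < w)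
    (hw1 : w < 1) (hr0 : 0 < r) (hr1 : r ≤ 1) (hq : q = w ^ 2 * r ^ 2)
    (ha : ∀ k ∈ s, w ^ 2 ≤ a k ∧ a k ≤ 1) (hP : ∏ k ∈ s, a k = r ^ 4)
    (hS : S = ∑ k ∈ s, q * (1 - a k) / (1 + q * a k))
    (hT : T = ∑ k ∈ s, q * (1 - a k) / (1 - q * a k)) :
    0 ≤ (1 - q ^ 2 * w ^ 4) * (1 + q) * (2 * (1 + q) + T)
          - (2 * (1 - q) - S) * ((1 - q ^ 2 * w ^ 4) * (1 - q)
              + 2 * q * (1 + w ^ 4) * (2 * (1 + q) + T)) := by
  have hw2 : w ^ 2 < 1 := by nlinarith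
  have hr2 : r ^ 2 ≤ 1 := by nlinarith
  have hq0 : 0 < q := by rw [hq]; positivity
  have hq1 : q < 1 := by
    rw [hq]
    have h3 : 0 < r ^ 2 := by positivity
    nlinarith
  have hak0 : ∀ k ∈ s, 0 < a k := fun k hk => lt_of_lt_of_le (by positivity) (ha k hk).1
  have hqa : ∀ k ∈ s, q * a k < 1 := fun k hk => by
    have h1 := (ha k hk).2
    have h2 := hak0 k hk
    nlinarith
  have hT_nonneg : 0 ≤ T := by
    rw [hT]
    apply Finset.sum_nonneg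
    intro k hk
    have h1 := (ha k hk).2
    have h2 : 0 < 1 - q * a k := by linarith [hqa k hk]
    apply div_nonneg (mul_nonneg hq0.le (by linarith)) h2.le
  have hw4 : w ^ 4 < 1 := by nlinarith
  have hq2 : q ^ 2 < 1 := by nlinarith
  have hpc : q ^ 2 * w ^ 4 < 1 := by
    have h := mul_lt_mul'' hq2 hw4 (by positivity) (by positivity)
    simpa using h
  have hqw : q * w ^ 2 < 1 := by
    have h := mul_lt_mul'' hq1 hw2 hq0.le (by positivity)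
    simpa using h
  have hal0 : 0 < (1 - q ^ 2 * w ^ 4) * (1 + q) := mul_pos (by linarith) (by linarith)
  have hbe0 : 0 < (1 - q ^ 2 * w ^ 4) * (1 - q) := mul_pos (by linarith) (by linarith)
  have hga0 : 0 < 2 * q * (1 + w ^ 4) := by positivity
  have hY0 : 0 < 2 * (1 + q) + T := by linarith
  rcases le_or_gt (2 * (1 - q) - S) 0 with hXle | hXpos
  · have h1 : 0 ≤ (1 - q ^ 2 * w ^ 4) * (1 + q) * (2 * (1 + q) + T) :=
      mul_nonneg hal0.le hY0.le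
    have h2 : 0 ≤ (1 - q ^ 2 * w ^ 4) * (1 - q) + 2 * q * (1 + w ^ 4) * (2 * (1 + q) + T) :=
      add_nonneg hbe0.le (mul_nonneg hga0.le hY0.le)
    have h3 := mul_nonneg (neg_nonneg.mpr hXle) h2
    linarith
  · have hlb := lower_bounds s a q w r hq0 hq1 hw0 hw1.le hr0 ha hP
    rw [← hS, ← hT] at hlb
    have hlogr : 0 ≤ -Real.log r := by
      have := Real.log_nonpos hr0.le hr1
      linarith
    have hTl0 : 0 ≤ q * w * (4 * (-Real.log r)) / (1 - q * w ^ 2) :=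
      div_nonneg (by positivity) (by linarith)
    have hlt : w ^ 4 * r ^ 2 < 1 := by
      have : w ^ 4 * r ^ 2 = q * w ^ 2 := by rw [hq]; ring
      rw [this]
      exact hqw
    have hred := reduced w r hw0 hw1.le hr0 hr1 hlt
    have heq : (1 - q ^ 2 * w ^ 4) * (1 + q)
          * (2 * (1 + q) + q * w * (4 * (-Real.log r)) / (1 - q * w ^ 2))
        - (2 * (1 - q) - q * w * (4 * (-Real.log r)) / (1 + q * w ^ 2))
          * ((1 - q ^ 2 * w ^ 4) * (1 - q)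
            + 2 * q * (1 + w ^ 4)
              * (2 * (1 + q) + q * w * (4 * (-Real.log r)) / (1 - q * w ^ 2))) = E0 w r := by
      rw [hq]
      unfold E0
      ring
    rw [← heq] at hred
    have h := mono_step ((1 - q ^ 2 * w ^ 4) * (1 + q)) ((1 - q ^ 2 * w ^ 4) * (1 - q))
      (2 * q * (1 + w ^ 4)) (2 * (1 - q) - S) (2 * (1 + q) + T)
      (2 * (1 - q) - q * w * (4 * (-Real.log r)) / (1 + q * w ^ 2))
      (2 * (1 + q) + q * w * (4 * (-Real.log r)) / (1 - q * w ^ 2))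
      hal0 hbe0 hga0 hXpos (by linarith [hlb.1]) (by linarith) (by linarith [hlb.2]) hred
    exact h

/-- `(starW)` in the variables `w = c^(1/4) < 1` and `r = P^(1/4)`. -/
theorem starW_aux {ι : Type*} (s : Finset ι) (a : ι → ℝ) (w r : ℝ) (hw0 : 0 < w) (hw1 : w < 1)
    (hr0 : 0 < r) (hr1 : r ≤ 1) (ha : ∀ k ∈ s, w ^ 2 ≤ a k ∧ a k ≤ 1)
    (hP : ∏ k ∈ s, a k = r ^ 4) (S0 S1 : ℝ)
    (hS0 : S0 = ∑ k ∈ s, (1 - a k) / (1 - w ^ 4 * r ^ 4 * a k ^ 2))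
    (hS1 : S1 = ∑ k ∈ s, a k * (1 - a k) / (1 - w ^ 4 * r ^ 4 * a k ^ 2)) :
    4 * w ^ 4 * (1 - r ^ 4) ≤ (1 - w ^ 4 * r ^ 4 * w ^ 4) * (S0 + w ^ 4 * r ^ 4 * S1)
      + (1 + w ^ 4) * (w ^ 4 * r ^ 4) * (4 * (S0 - S1) + S0 ^ 2 - w ^ 4 * r ^ 4 * S1 ^ 2) := by
  obtain ⟨q, hq⟩ : ∃ q : ℝ, q = w ^ 2 * r ^ 2 := ⟨_, rfl⟩
  have hw2 : w ^ 2 < 1 := by nlinarith
  have hr2 : r ^ 2 ≤ 1 := by nlinarith
  have hq0 : 0 < q := by rw [hq]; positivity
  have hq1 : q < 1 := by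
    rw [hq]
    have h3 : 0 < r ^ 2 := by positivity
    nlinarith
  have hqq : q ^ 2 = w ^ 4 * r ^ 4 := by rw [hq]; ring
  have hak0 : ∀ k ∈ s, 0 < a k := fun k hk => lt_of_lt_of_le (by positivity) (ha k hk).1
  have hqa : ∀ k ∈ s, q * a k < 1 := fun k hk => by
    have h1 := (ha k hk).2
    have h2 := hak0 k hk
    nlinarith
  obtain ⟨S, hS⟩ : ∃ S : ℝ, S = ∑ k ∈ s, q * (1 - a k) / (1 + q * a k) := ⟨_, rfl⟩
  obtain ⟨T, hT⟩ : ∃ T : ℝ, T = ∑ k ∈ s, q * (1 - a k) / (1 - q * a k) := ⟨_, rfl⟩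
  have hsum := sum_identities s a q (w ^ 4 * r ^ 4) hq0 hqq hak0 hqa
  rw [← hS, ← hT, ← hS0] at hsum
  have hS0' : S0 = (S + T) / (2 * q) := hsum.1
  have hS1' : S1 = (T - S) / (2 * q ^ 2) := by rw [hS1]; exact hsum.2
  have hr4 : r ^ 4 = q ^ 2 / w ^ 4 := by
    rw [hqq]
    field_simp
  have hcore := core_ST s a w r q S T hw0 hw1 hr0 hr1 hq ha hP hS hT
  have hid := ident w q S T hw0 hq0
  have hfinal : 0 ≤ ((1 - q ^ 2 * w ^ 4) * (1 + q) * (2 * (1 + q) + T)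
          - (2 * (1 - q) - S) * ((1 - q ^ 2 * w ^ 4) * (1 - q)
              + 2 * q * (1 + w ^ 4) * (2 * (1 + q) + T))) / (2 * q) :=
    div_nonneg hcore (by positivity)
  rw [← hid] at hfinal
  rw [hS0', hS1', ← hqq, hr4]
  linarith

/-- **The merging inequality `(starW)`.**  For `c` in `(0,1]` and finitely many `a k` in
`[sqrt c, 1]`, with `P = prod a k`, `p = c P`, `S0 = sum (1 - a k)/(1 - p (a k)^2)`,
`S1 = sum a k (1 - a k)/(1 - p (a k)^2)`: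
`4 c (1 - P) <= (1 - p c)(S0 + p S1) + (1 + c) p (4 (S0 - S1) + S0^2 - p S1^2)`. -/
theorem starW {ι : Type*} (s : Finset ι) (a : ι → ℝ) (c : ℝ) (hc0 : 0 < c) (hc1 : c ≤ 1)
    (ha : ∀ k ∈ s, Real.sqrt c ≤ a k ∧ a k ≤ 1) (P p S0 S1 : ℝ)
    (hP : P = ∏ k ∈ s, a k) (hp : p = c * P)
    (hS0 : S0 = ∑ k ∈ s, (1 - a k) / (1 - p * a k ^ 2))
    (hS1 : S1 = ∑ k ∈ s, a k * (1 - a k) / (1 - p * a k ^ 2)) :
    4 * c * (1 - P) ≤ (1 - p * c) * (S0 + p * S1)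
      + (1 + c) * p * (4 * (S0 - S1) + S0 ^ 2 - p * S1 ^ 2) := by
  rcases eq_or_lt_of_le hc1 with hc | hc
  · have hall : ∀ k ∈ s, a k = 1 := by
      intro k hk
      have h1 := (ha k hk).1
      rw [hc, Real.sqrt_one] at h1
      exact le_antisymm (ha k hk).2 h1
    have hS0' : S0 = 0 := by
      rw [hS0]
      apply Finset.sum_eq_zero
      intro k hk
      rw [hall k hk]
      simp
    have hS1' : S1 = 0 := by
      rw [hS1]
      apply Finset.sum_eq_zero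
      intro k hk
      rw [hall k hk]
      simp
    have hP' : P = 1 := by
      rw [hP]
      exact Finset.prod_eq_one hall
    rw [hS0', hS1', hP']
    simp
  · obtain ⟨z, hz, hz0, hzz⟩ : ∃ z : ℝ, z = Real.sqrt c ∧ 0 < z ∧ z ^ 2 = c :=
      ⟨_, rfl, Real.sqrt_pos.mpr hc0, Real.sq_sqrt hc0.le⟩
    obtain ⟨w, hw0, hww⟩ : ∃ w : ℝ, 0 < w ∧ w ^ 2 = z :=
      ⟨Real.sqrt z, Real.sqrt_pos.mpr hz0, Real.sq_sqrt hz0.le⟩
    have hak0 : ∀ k ∈ s, 0 < a k := fun k hk => by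
      have h1 := (ha k hk).1
      rw [← hz] at h1
      linarith
    have hP0 : 0 < P := by
      rw [hP]
      exact Finset.prod_pos hak0
    have hP1 : P ≤ 1 := by
      rw [hP]
      exact Finset.prod_le_one (fun k hk => (hak0 k hk).le) (fun k hk => (ha k hk).2)
    obtain ⟨R2, hR0, hRR⟩ : ∃ R2 : ℝ, 0 < R2 ∧ R2 ^ 2 = P :=
      ⟨Real.sqrt P, Real.sqrt_pos.mpr hP0, Real.sq_sqrt hP0.le⟩
    obtain ⟨r, hr0, hrr⟩ : ∃ r : ℝ, 0 < r ∧ r ^ 2 = R2 :=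
      ⟨Real.sqrt R2, Real.sqrt_pos.mpr hR0, Real.sq_sqrt hR0.le⟩
    have hw4 : w ^ 4 = c := by
      rw [← hzz, ← hww]
      ring
    have hr4 : r ^ 4 = P := by
      rw [← hRR, ← hrr]
      ring
    have hw1 : w < 1 := by
      by_contra h
      rw [not_lt] at h
      have h1 : (1 : ℝ) ≤ w ^ 4 := one_le_pow₀ h
      linarith
    have hr1 : r ≤ 1 := by
      by_contra h
      rw [not_le] at h
      have h1 : (1 : ℝ) < r ^ 4 := one_lt_pow₀ h (by norm_num)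
      linarith
    have hmain := starW_aux s a w r hw0 hw1 hr0 hr1
      (fun k hk => ⟨by rw [hww, hz]; exact (ha k hk).1, (ha k hk).2⟩)
      (by rw [hr4, hP]) S0 S1 (by rw [hS0, hp, hw4, hr4]) (by rw [hS1, hp, hw4, hr4])
    rw [hw4, hr4] at hmain
    rw [hp]
    exact hmain

end Vale.Agent.Helper25.StarW
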