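import Mathlib
import Vale.Agent.Helper25.TrilinearEntropy

/-!
# Helper file for P141: an explicit certificate (base 22, 42 lines, total multiplicity 2002)

The data below were found by a numerical optimisation; every fact about them that is used is
checked here by kernel evaluation.
-/

namespace Vale.Agent.Helper25.TrilinearCertU

def kL : List ℤ := [39, 39, 40, 41, 42, 42, 43, 43, 44, 44, 45, 45, 46, 46, 47, 47, 48, 48, 48, 49, 49, 50, 50, 51, 51, 51, 52, 52, 53, 53, 54, 54, 55, 55, 56, 56, 57, 57, 58, 59, 60, 60]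
def aL : List ℤ := [30, 32, 32, 32, 32, 34, 32, 34, 32, 34, 34, 36, 34, 36, 34, 36, 34, 36, 38, 36, 38, 36, 38, 36, 38, 40, 38, 40, 38, 40, 38, 40, 40, 42, 40, 42, 40, 42, 42, 42, 42, 44]
def cL : List ℕ := [1, 52, 75, 83, 57, 25, 15, 71, 1, 99, 88, 13, 45, 51, 8, 99, 1, 110, 4, 77, 26, 26, 77, 4, 110, 1, 99, 8, 51, 45, 13, 88, 99, 1, 71, 15, 25, 57, 83, 75, 52, 1]
def nAL : List ℕ := [1, 0, 283, 0, 337, 0, 380, 0, 380, 0, 337, 0, 283, 0, 1]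
def nBL : List ℕ := [2, 28, 141, 324, 506, 506, 324, 141, 28, 2]
def nCL : List ℕ := [95, 0, 232, 0, 418, 0, 512, 0, 418, 0, 232, 0, 95]

def kOf (i : ℕ) : ℤ := kL.getD i 0
def aOf (i : ℕ) : ℤ := aL.getD i 0
def cnt (i : ℕ) : ℕ := cL.getD i 0
def nA (a : ℤ) : ℕ := nAL.getD (a - 30).toNat 0
def nB (b : ℤ) : ℕ := nBL.getD (b - 20).toNat 0
def nC (c : ℤ) : ℕ := nCL.getD (c - 6).toNat 0

theorem hN : (2002 : ℕ) = ∑ i ∈ Finset.range 42, cnt i := by decide +kernel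
theorem hsumA : ∑ a ∈ Finset.Icc (30 : ℤ) 44, nA a ≤ 2002 := by decide +kernel
theorem hsumB : ∑ b ∈ Finset.Icc (20 : ℤ) 29, nB b ≤ 2002 := by decide +kernel
theorem hsumC : ∑ c ∈ Finset.Icc (6 : ℤ) 18, nC c ≤ 2002 := by decide +kernel
theorem hcnt : ∀ i < 42, 0 < cnt i := by decide +kernel
theorem hKm : ∀ i < 42, (39 : ℤ) ≤ kOf i ∧ kOf i ≤ 60 := by decide +kernel
theorem hAm : ∀ i < 42, (30 : ℤ) ≤ aOf i ∧ aOf i ≤ 44 := by decide +kernel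
theorem hBm : ∀ i < 42, (20 : ℤ) ≤ 2 * aOf i - kOf i ∧ 2 * aOf i - kOf i ≤ 29 := by
  decide +kernel
theorem hCm : ∀ i < 42, (6 : ℤ) ≤ 3 * aOf i - 2 * kOf i ∧ 3 * aOf i - 2 * kOf i ≤ 18 := by
  decide +kernel
theorem hnA : ∀ i < 42, 0 < nA (aOf i) := by decide +kernel
theorem hnB : ∀ i < 42, 0 < nB (2 * aOf i - kOf i) := by decide +kernel
theorem hnC : ∀ i < 42, 0 < nC (3 * aOf i - 2 * kOf i) := by decide +kernel
theorem hinj : ∀ i < 42, ∀ j < 42, kOf i = kOf j → aOf i = aOf j → i = j := by decide +kernel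
theorem hMA : 2 ^ 16782 ≤ ∏ i ∈ Finset.range 42, nA (aOf i) ^ cnt i := by decide +kernel
theorem hMB : 2 ^ 16781 ≤ ∏ i ∈ Finset.range 42, nB (2 * aOf i - kOf i) ^ cnt i := by
  decide +kernel
theorem hMC : 2 ^ 16781 ≤ ∏ i ∈ Finset.range 42, nC (3 * aOf i - 2 * kOf i) ^ cnt i := by
  decide +kernel
theorem hM1 : ∏ i ∈ Finset.range 42,
    (∑ j ∈ (Finset.range 42).filter (fun j => kOf j = kOf i), cnt j) ^ cnt i ≤ 2 ^ 13081 := by
  decide +kernel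
theorem hM2 : ∏ i ∈ Finset.range 42, cnt i ^ cnt i ≤ 2 ^ 12170 := by decide +kernel
theorem hMq : (22 : ℤ) ^ 2002 ≤ 2 ^ 8928 := by decide +kernel

/-- The certificate theorem applied to these data. -/
theorem unbounded (p₁ p₂ p₃ r : ℝ) (h₁ : 0 < p₁) (h₂ : 0 < p₂) (h₃ : 0 < p₃) (hr : 0 < r)
    (hr1 : r ≤ 1) (hH : 1 / r = 1 / p₁ + 1 / p₂ + 1 / p₃)
    (hlin : ((8928 : ℕ) : ℝ) + ((12170 : ℕ) : ℝ) + (1 / r - 1) * ((13081 : ℕ) : ℝ) <
      1 / p₁ * ((16782 : ℕ) : ℝ) + 1 / p₂ * ((16781 : ℕ) : ℝ) + 1 / p₃ * ((16781 : ℕ) : ℝ)) :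
    ¬ ∃ Cst : ℝ, ∀ (f₁ f₂ f₃ : SchwartzMap ℝ ℂ) (g : ℝ → ℂ),
      (∀ x : ℝ, Filter.Tendsto (fun q : ℝ × ℝ => ∫ t in {t : ℝ | q.1 < |t| ∧ |t| < q.2},
          f₁ (x - t) * f₂ (x - 2 * t) * f₃ (x - 3 * t) / (t : ℂ))
        ((nhdsWithin 0 (Set.Ioi 0)) ×ˢ Filter.atTop) (nhds (g x))) →
      MeasureTheory.eLpNorm g (ENNReal.ofReal r) MeasureTheory.volume ≤ ENNReal.ofReal Cst *
        MeasureTheory.eLpNorm f₁ (ENNReal.ofReal p₁) MeasureTheory.volume *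
        MeasureTheory.eLpNorm f₂ (ENNReal.ofReal p₂) MeasureTheory.volume *
        MeasureTheory.eLpNorm f₃ (ENNReal.ofReal p₃) MeasureTheory.volume :=
  Vale.Agent.Helper25.TrilinearEntropy.unbounded_of_cert 42 kOf aOf cnt 22 (by norm_num)
    30 44 20 29 6 18 39 60 (by norm_num) (by norm_num) (by norm_num)
    (by norm_num) (by norm_num) nA nB nC 2002 hN (by norm_num) hsumA hsumB hsumC hcnt hKm hAm hBm
    hCm hnA hnB hnC hinj 16782 16781 16781 13081 12170 8928 hMA hMB hMC hM1 hM2 hMq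
    p₁ p₂ p₃ r h₁ h₂ h₃ hr hr1 hH hlin

end Vale.Agent.Helper25.TrilinearCertU
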