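import Mathlib
import Vale.Agent.Helper25.TrilinearEntropy

/-!
# Helper file for P141: an explicit certificate (base 25, 53 lines, total multiplicity 9998)

The data below were found by a numerical optimisation; every fact about them that is used is
checked here by kernel evaluation.
-/

namespace Vale.Agent.Helper25.TrilinearCov1

def kL : List ℤ := [36, 37, 38, 38, 39, 39, 40, 40, 41, 41, 41, 42, 42, 43, 43, 44, 44, 44, 45, 45, 45, 46, 46, 47, 47, 48, 48, 48, 49, 49, 50, 50, 51, 51, 51, 52, 52, 52, 53, 53, 54, 54, 55, 55, 55, 56, 56, 57, 57, 58, 58, 59, 60]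
def aL : List ℤ := [30, 30, 30, 32, 30, 32, 30, 32, 30, 32, 34, 32, 34, 32, 34, 32, 34, 36, 32, 34, 36, 34, 36, 34, 36, 34, 36, 38, 36, 38, 36, 38, 36, 38, 40, 36, 38, 40, 38, 40, 38, 40, 38, 40, 42, 40, 42, 40, 42, 40, 42, 42, 42]
def cL : List ℕ := [288, 318, 292, 13, 111, 237, 25, 372, 4, 394, 5, 266, 147, 106, 320, 20, 450, 1, 3, 397, 58, 256, 203, 81, 387, 14, 462, 14, 387, 81, 203, 256, 58, 397, 3, 1, 450, 20, 320, 106, 147, 266, 5, 394, 4, 372, 25, 237, 111, 13, 292, 318, 288]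
def nAL : List ℕ := [1038, 0, 1411, 0, 1670, 0, 1760, 0, 1670, 0, 1411, 0, 1038]
def nBL : List ℕ := [7, 60, 361, 1177, 2053, 2682, 2053, 1177, 361, 60, 7]
def nCL : List ℕ := [19, 0, 747, 0, 1318, 0, 1910, 0, 2010, 0, 1910, 0, 1318, 0, 747, 0, 19]

def kOf (i : ℕ) : ℤ := kL.getD i 0
def aOf (i : ℕ) : ℤ := aL.getD i 0
def cnt (i : ℕ) : ℕ := cL.getD i 0
def nA (a : ℤ) : ℕ := nAL.getD (a - 30).toNat 0
def nB (b : ℤ) : ℕ := nBL.getD (b - 19).toNat 0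
def nC (c : ℤ) : ℕ := nCL.getD (c - 4).toNat 0

theorem hN : (9998 : ℕ) = ∑ i ∈ Finset.range 53, cnt i := by decide +kernel
theorem hsumA : ∑ a ∈ Finset.Icc (30 : ℤ) 42, nA a ≤ 9998 := by decide +kernel
theorem hsumB : ∑ b ∈ Finset.Icc (19 : ℤ) 29, nB b ≤ 9998 := by decide +kernel
theorem hsumC : ∑ c ∈ Finset.Icc (4 : ℤ) 20, nC c ≤ 9998 := by decide +kernel
theorem hcnt : ∀ i < 53, 0 < cnt i := by decide +kernel
theorem hKm : ∀ i < 53, (36 : ℤ) ≤ kOf i ∧ kOf i ≤ 60 := by decide +kernel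
theorem hAm : ∀ i < 53, (30 : ℤ) ≤ aOf i ∧ aOf i ≤ 42 := by decide +kernel
theorem hBm : ∀ i < 53, (19 : ℤ) ≤ 2 * aOf i - kOf i ∧ 2 * aOf i - kOf i ≤ 29 := by
  decide +kernel
theorem hCm : ∀ i < 53, (4 : ℤ) ≤ 3 * aOf i - 2 * kOf i ∧ 3 * aOf i - 2 * kOf i ≤ 20 := by
  decide +kernel
theorem hnA : ∀ i < 53, 0 < nA (aOf i) := by decide +kernel
theorem hnB : ∀ i < 53, 0 < nB (2 * aOf i - kOf i) := by decide +kernel
theorem hnC : ∀ i < 53, 0 < nC (3 * aOf i - 2 * kOf i) := by decide +kernel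
theorem hinj : ∀ i < 53, ∀ j < 53, kOf i = kOf j → aOf i = aOf j → i = j := by decide +kernel
theorem hMA : 2 ^ 105057 ≤ ∏ i ∈ Finset.range 53, nA (aOf i) ^ cnt i := by decide +kernel
theorem hMB : 2 ^ 106621 ≤ ∏ i ∈ Finset.range 53, nB (2 * aOf i - kOf i) ^ cnt i := by
  decide +kernel
theorem hMC : 2 ^ 105432 ≤ ∏ i ∈ Finset.range 53, nC (3 * aOf i - 2 * kOf i) ^ cnt i := by
  decide +kernel
theorem hM1 : ∏ i ∈ Finset.range 53,
    (∑ j ∈ (Finset.range 53).filter (fun j => kOf j = kOf i), cnt j) ^ cnt i ≤ 2 ^ 86614 := by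
  decide +kernel
theorem hM2 : ∏ i ∈ Finset.range 53, cnt i ^ cnt i ≤ 2 ^ 81427 := by decide +kernel
theorem hMq : (25 : ℤ) ^ 9998 ≤ 2 ^ 46430 := by decide +kernel

/-- The certificate theorem applied to these data. -/
theorem unbounded (p₁ p₂ p₃ r : ℝ) (h₁ : 0 < p₁) (h₂ : 0 < p₂) (h₃ : 0 < p₃) (hr : 0 < r)
    (hr1 : r ≤ 1) (hH : 1 / r = 1 / p₁ + 1 / p₂ + 1 / p₃)
    (hlin : ((46430 : ℕ) : ℝ) + ((81427 : ℕ) : ℝ) + (1 / r - 1) * ((86614 : ℕ) : ℝ) <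
      1 / p₁ * ((105057 : ℕ) : ℝ) + 1 / p₂ * ((106621 : ℕ) : ℝ) + 1 / p₃ * ((105432 : ℕ) : ℝ)) :
    ¬ ∃ Cst : ℝ, ∀ (f₁ f₂ f₃ : SchwartzMap ℝ ℂ) (g : ℝ → ℂ),
      (∀ x : ℝ, Filter.Tendsto (fun q : ℝ × ℝ => ∫ t in {t : ℝ | q.1 < |t| ∧ |t| < q.2},
          f₁ (x - t) * f₂ (x - 2 * t) * f₃ (x - 3 * t) / (t : ℂ))
        ((nhdsWithin 0 (Set.Ioi 0)) ×ˢ Filter.atTop) (nhds (g x))) →
      MeasureTheory.eLpNorm g (ENNReal.ofReal r) MeasureTheory.volume ≤ ENNReal.ofReal Cst *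
        MeasureTheory.eLpNorm f₁ (ENNReal.ofReal p₁) MeasureTheory.volume *
        MeasureTheory.eLpNorm f₂ (ENNReal.ofReal p₂) MeasureTheory.volume *
        MeasureTheory.eLpNorm f₃ (ENNReal.ofReal p₃) MeasureTheory.volume :=
  Vale.Agent.Helper25.TrilinearEntropy.unbounded_of_cert 53 kOf aOf cnt 25 (by norm_num)
    30 42 19 29 4 20 36 60 (by norm_num) (by norm_num) (by norm_num)
    (by norm_num) (by norm_num) nA nB nC 9998 hN (by norm_num) hsumA hsumB hsumC hcnt hKm hAm hBm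
    hCm hnA hnB hnC hinj 105057 106621 105432 86614 81427 46430 hMA hMB hMC hM1 hM2 hMq
    p₁ p₂ p₃ r h₁ h₂ h₃ hr hr1 hH hlin

end Vale.Agent.Helper25.TrilinearCov1
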