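import Mathlib
import Vale.Agent.Helper25.TrilinearEntropy

/-!
# Helper file for P141: an explicit certificate (base 19, 37 lines, total multiplicity 9997)

The data below were found by a numerical optimisation; every fact about them that is used is
checked here by kernel evaluation.
-/

namespace Vale.Agent.Helper25.TrilinearCov3

def kL : List ℤ := [27, 28, 29, 29, 30, 30, 31, 31, 32, 32, 33, 33, 33, 34, 34, 35, 35, 36, 36, 36, 37, 37, 38, 38, 39, 39, 39, 40, 40, 41, 41, 42, 42, 43, 43, 44, 45]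
def aL : List ℤ := [22, 22, 22, 24, 22, 24, 22, 24, 22, 24, 22, 24, 26, 24, 26, 24, 26, 24, 26, 28, 26, 28, 26, 28, 26, 28, 30, 28, 30, 28, 30, 28, 30, 28, 30, 30, 30]
def cL : List ℕ := [361, 460, 515, 2, 344, 161, 111, 414, 18, 554, 2, 543, 53, 313, 241, 78, 519, 12, 595, 12, 519, 78, 241, 313, 53, 543, 2, 554, 18, 414, 111, 161, 344, 2, 515, 460, 361]
def nAL : List ℕ := [1811, 0, 2077, 0, 2221, 0, 2077, 0, 1811]
def nBL : List ℕ := [2, 30, 244, 1059, 2352, 2623, 2352, 1059, 244, 30, 2]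
def nCL : List ℕ := [2, 0, 589, 0, 1211, 0, 2012, 0, 2369, 0, 2012, 0, 1211, 0, 589, 0, 2]

def kOf (i : ℕ) : ℤ := kL.getD i 0
def aOf (i : ℕ) : ℤ := aL.getD i 0
def cnt (i : ℕ) : ℕ := cL.getD i 0
def nA (a : ℤ) : ℕ := nAL.getD (a - (22)).toNat 0
def nB (b : ℤ) : ℕ := nBL.getD (b - (11)).toNat 0
def nC (c : ℤ) : ℕ := nCL.getD (c - (-2)).toNat 0

theorem hN : (9997 : ℕ) = ∑ i ∈ Finset.range 37, cnt i := by decide +kernel
theorem hsumA : ∑ a ∈ Finset.Icc (22 : ℤ) 30, nA a ≤ 9997 := by decide +kernel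
theorem hsumB : ∑ b ∈ Finset.Icc (11 : ℤ) 21, nB b ≤ 9997 := by decide +kernel
theorem hsumC : ∑ c ∈ Finset.Icc (-2 : ℤ) 14, nC c ≤ 9997 := by decide +kernel
theorem hcnt : ∀ i < 37, 0 < cnt i := by decide +kernel
theorem hKm : ∀ i < 37, (27 : ℤ) ≤ kOf i ∧ kOf i ≤ 45 := by decide +kernel
theorem hAm : ∀ i < 37, (22 : ℤ) ≤ aOf i ∧ aOf i ≤ 30 := by decide +kernel
theorem hBm : ∀ i < 37, (11 : ℤ) ≤ 2 * aOf i - kOf i ∧ 2 * aOf i - kOf i ≤ 21 := by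
  decide +kernel
theorem hCm : ∀ i < 37, (-2 : ℤ) ≤ 3 * aOf i - 2 * kOf i ∧ 3 * aOf i - 2 * kOf i ≤ 14 := by
  decide +kernel
theorem hnA : ∀ i < 37, 0 < nA (aOf i) := by decide +kernel
theorem hnB : ∀ i < 37, 0 < nB (2 * aOf i - kOf i) := by decide +kernel
theorem hnC : ∀ i < 37, 0 < nC (3 * aOf i - 2 * kOf i) := by decide +kernel
theorem hinj : ∀ i < 37, ∀ j < 37, kOf i = kOf j → aOf i = aOf j → i = j := by decide +kernel
theorem hMA : 2 ^ 109668 ≤ ∏ i ∈ Finset.range 37, nA (aOf i) ^ cnt i := by decide +kernel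
theorem hMB : 2 ^ 107923 ≤ ∏ i ∈ Finset.range 37, nB (2 * aOf i - kOf i) ^ cnt i := by
  decide +kernel
theorem hMC : 2 ^ 106367 ≤ ∏ i ∈ Finset.range 37, nC (3 * aOf i - 2 * kOf i) ^ cnt i := by
  decide +kernel
theorem hM1 : ∏ i ∈ Finset.range 37,
    (∑ j ∈ (Finset.range 37).filter (fun j => kOf j = kOf i), cnt j) ^ cnt i ≤ 2 ^ 90511 := by
  decide +kernel
theorem hM2 : ∏ i ∈ Finset.range 37, cnt i ^ cnt i ≤ 2 ^ 86061 := by decide +kernel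
theorem hMq : (19 : ℤ) ^ 9997 ≤ 2 ^ 42467 := by decide +kernel

/-- The certificate theorem applied to these data. -/
theorem unbounded (p₁ p₂ p₃ r : ℝ) (h₁ : 0 < p₁) (h₂ : 0 < p₂) (h₃ : 0 < p₃) (hr : 0 < r)
    (hr1 : r ≤ 1) (hH : 1 / r = 1 / p₁ + 1 / p₂ + 1 / p₃)
    (hlin : ((42467 : ℕ) : ℝ) + ((86061 : ℕ) : ℝ) + (1 / r - 1) * ((90511 : ℕ) : ℝ) <
      1 / p₁ * ((109668 : ℕ) : ℝ) + 1 / p₂ * ((107923 : ℕ) : ℝ) + 1 / p₃ * ((106367 : ℕ) : ℝ)) :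
    ¬ ∃ Cst : ℝ, ∀ (f₁ f₂ f₃ : SchwartzMap ℝ ℂ) (g : ℝ → ℂ),
      (∀ x : ℝ, Filter.Tendsto (fun q : ℝ × ℝ => ∫ t in {t : ℝ | q.1 < |t| ∧ |t| < q.2},
          f₁ (x - t) * f₂ (x - 2 * t) * f₃ (x - 3 * t) / (t : ℂ))
        ((nhdsWithin 0 (Set.Ioi 0)) ×ˢ Filter.atTop) (nhds (g x))) →
      MeasureTheory.eLpNorm g (ENNReal.ofReal r) MeasureTheory.volume ≤ ENNReal.ofReal Cst *
        MeasureTheory.eLpNorm f₁ (ENNReal.ofReal p₁) MeasureTheory.volume *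
        MeasureTheory.eLpNorm f₂ (ENNReal.ofReal p₂) MeasureTheory.volume *
        MeasureTheory.eLpNorm f₃ (ENNReal.ofReal p₃) MeasureTheory.volume :=
  Vale.Agent.Helper25.TrilinearEntropy.unbounded_of_cert 37 kOf aOf cnt 19 (by norm_num)
    (22) (30) (11) (21) (-2) (14) (27) (45) (by norm_num) (by norm_num) (by norm_num)
    (by norm_num) (by norm_num) nA nB nC 9997 hN (by norm_num) hsumA hsumB hsumC hcnt hKm hAm hBm
    hCm hnA hnB hnC hinj 109668 107923 106367 90511 86061 42467 hMA hMB hMC hM1 hM2 hMq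
    p₁ p₂ p₃ r h₁ h₂ h₃ hr hr1 hH hlin

end Vale.Agent.Helper25.TrilinearCov3
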