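import Mathlib
import Vale.Agent.Helper25.TrilinearEntropy

/-!
# Helper file for P141: an explicit certificate (base 21, 42 lines, total multiplicity 10002)

The data below were found by a numerical optimisation; every fact about them that is used is
checked here by kernel evaluation.
-/

namespace Vale.Agent.Helper25.TrilinearCov4

def kL : List ℤ := [30, 31, 32, 32, 33, 33, 34, 34, 35, 35, 35, 36, 36, 37, 37, 38, 38, 38, 39, 39, 40, 40, 41, 41, 42, 42, 42, 43, 43, 44, 44, 45, 45, 45, 46, 46, 47, 47, 48, 48, 49, 50]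
def aL : List ℤ := [24, 24, 24, 26, 24, 26, 24, 26, 24, 26, 28, 26, 28, 26, 28, 26, 28, 30, 28, 30, 28, 30, 28, 30, 28, 30, 32, 30, 32, 30, 32, 30, 32, 34, 32, 34, 32, 34, 32, 34, 34, 34]
def cL : List ℕ := [350, 401, 378, 8, 144, 284, 22, 470, 2, 500, 3, 336, 175, 108, 409, 14, 568, 1, 492, 68, 268, 268, 68, 492, 1, 568, 14, 409, 108, 175, 336, 3, 500, 2, 470, 22, 284, 144, 8, 378, 401, 350]
def nAL : List ℕ := [1297, 0, 1720, 0, 1984, 0, 1984, 0, 1720, 0, 1297]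
def nBL : List ℕ := [2, 37, 323, 1165, 2086, 2776, 2086, 1165, 323, 37, 2]
def nCL : List ℕ := [12, 0, 893, 0, 1678, 0, 2418, 0, 2418, 0, 1678, 0, 893, 0, 12]

def kOf (i : ℕ) : ℤ := kL.getD i 0
def aOf (i : ℕ) : ℤ := aL.getD i 0
def cnt (i : ℕ) : ℕ := cL.getD i 0
def nA (a : ℤ) : ℕ := nAL.getD (a - 24).toNat 0
def nB (b : ℤ) : ℕ := nBL.getD (b - 13).toNat 0
def nC (c : ℤ) : ℕ := nCL.getD (c - 0).toNat 0

theorem hN : (10002 : ℕ) = ∑ i ∈ Finset.range 42, cnt i := by decide +kernel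
theorem hsumA : ∑ a ∈ Finset.Icc (24 : ℤ) 34, nA a ≤ 10002 := by decide +kernel
theorem hsumB : ∑ b ∈ Finset.Icc (13 : ℤ) 23, nB b ≤ 10002 := by decide +kernel
theorem hsumC : ∑ c ∈ Finset.Icc (0 : ℤ) 14, nC c ≤ 10002 := by decide +kernel
theorem hcnt : ∀ i < 42, 0 < cnt i := by decide +kernel
theorem hKm : ∀ i < 42, (30 : ℤ) ≤ kOf i ∧ kOf i ≤ 50 := by decide +kernel
theorem hAm : ∀ i < 42, (24 : ℤ) ≤ aOf i ∧ aOf i ≤ 34 := by decide +kernel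
theorem hBm : ∀ i < 42, (13 : ℤ) ≤ 2 * aOf i - kOf i ∧ 2 * aOf i - kOf i ≤ 23 := by
  decide +kernel
theorem hCm : ∀ i < 42, (0 : ℤ) ≤ 3 * aOf i - 2 * kOf i ∧ 3 * aOf i - 2 * kOf i ≤ 14 := by
  decide +kernel
theorem hnA : ∀ i < 42, 0 < nA (aOf i) := by decide +kernel
theorem hnB : ∀ i < 42, 0 < nB (2 * aOf i - kOf i) := by decide +kernel
theorem hnC : ∀ i < 42, 0 < nC (3 * aOf i - 2 * kOf i) := by decide +kernel
theorem hinj : ∀ i < 42, ∀ j < 42, kOf i = kOf j → aOf i = aOf j → i = j := by decide +kernel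
theorem hMA : 2 ^ 107264 ≤ ∏ i ∈ Finset.range 42, nA (aOf i) ^ cnt i := by decide +kernel
theorem hMB : 2 ^ 107264 ≤ ∏ i ∈ Finset.range 42, nB (2 * aOf i - kOf i) ^ cnt i := by
  decide +kernel
theorem hMC : 2 ^ 107899 ≤ ∏ i ∈ Finset.range 42, nC (3 * aOf i - 2 * kOf i) ^ cnt i := by
  decide +kernel
theorem hM1 : ∏ i ∈ Finset.range 42,
    (∑ j ∈ (Finset.range 42).filter (fun j => kOf j = kOf i), cnt j) ^ cnt i ≤ 2 ^ 89149 := by
  decide +kernel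
theorem hM2 : ∏ i ∈ Finset.range 42, cnt i ^ cnt i ≤ 2 ^ 84841 := by decide +kernel
theorem hMq : (21 : ℤ) ^ 10002 ≤ 2 ^ 43932 := by decide +kernel

/-- The certificate theorem applied to these data. -/
theorem unbounded (p₁ p₂ p₃ r : ℝ) (h₁ : 0 < p₁) (h₂ : 0 < p₂) (h₃ : 0 < p₃) (hr : 0 < r)
    (hr1 : r ≤ 1) (hH : 1 / r = 1 / p₁ + 1 / p₂ + 1 / p₃)
    (hlin : ((43932 : ℕ) : ℝ) + ((84841 : ℕ) : ℝ) + (1 / r - 1) * ((89149 : ℕ) : ℝ) <
      1 / p₁ * ((107264 : ℕ) : ℝ) + 1 / p₂ * ((107264 : ℕ) : ℝ) + 1 / p₃ * ((107899 : ℕ) : ℝ)) :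
    ¬ ∃ Cst : ℝ, ∀ (f₁ f₂ f₃ : SchwartzMap ℝ ℂ) (g : ℝ → ℂ),
      (∀ x : ℝ, Filter.Tendsto (fun q : ℝ × ℝ => ∫ t in {t : ℝ | q.1 < |t| ∧ |t| < q.2},
          f₁ (x - t) * f₂ (x - 2 * t) * f₃ (x - 3 * t) / (t : ℂ))
        ((nhdsWithin 0 (Set.Ioi 0)) ×ˢ Filter.atTop) (nhds (g x))) →
      MeasureTheory.eLpNorm g (ENNReal.ofReal r) MeasureTheory.volume ≤ ENNReal.ofReal Cst *
        MeasureTheory.eLpNorm f₁ (ENNReal.ofReal p₁) MeasureTheory.volume *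
        MeasureTheory.eLpNorm f₂ (ENNReal.ofReal p₂) MeasureTheory.volume *
        MeasureTheory.eLpNorm f₃ (ENNReal.ofReal p₃) MeasureTheory.volume :=
  Vale.Agent.Helper25.TrilinearEntropy.unbounded_of_cert 42 kOf aOf cnt 21 (by norm_num)
    24 34 13 23 0 14 30 50 (by norm_num) (by norm_num) (by norm_num)
    (by norm_num) (by norm_num) nA nB nC 10002 hN (by norm_num) hsumA hsumB hsumC hcnt hKm hAm hBm
    hCm hnA hnB hnC hinj 107264 107264 107899 89149 84841 43932 hMA hMB hMC hM1 hM2 hMq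
    p₁ p₂ p₃ r h₁ h₂ h₃ hr hr1 hH hlin

end Vale.Agent.Helper25.TrilinearCov4
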