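import Mathlib
import Vale.Agent.Helper25.TrilinearEntropy

/-!
# Helper file for P141: an explicit certificate (base 22, 44 lines, total multiplicity 9998)

The data below were found by a numerical optimisation; every fact about them that is used is
checked here by kernel evaluation.
-/

namespace Vale.Agent.Helper25.TrilinearCov6

def kL : List ℤ := [33, 34, 35, 35, 36, 36, 37, 37, 38, 38, 38, 39, 39, 40, 40, 41, 41, 42, 42, 42, 43, 43, 44, 44, 45, 45, 45, 46, 46, 47, 47, 48, 48, 49, 49, 49, 50, 50, 51, 51, 52, 52, 53, 54]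
def aL : List ℤ := [28, 28, 28, 30, 28, 30, 28, 30, 28, 30, 32, 30, 32, 30, 32, 30, 32, 30, 32, 34, 32, 34, 32, 34, 32, 34, 36, 34, 36, 34, 36, 34, 36, 34, 36, 38, 36, 38, 36, 38, 36, 38, 38, 38]
def cL : List ℕ := [310, 391, 390, 3, 211, 196, 53, 395, 7, 486, 1, 396, 90, 189, 292, 38, 492, 4, 518, 24, 374, 139, 139, 374, 24, 518, 4, 492, 38, 292, 189, 90, 396, 1, 486, 7, 395, 53, 196, 211, 3, 390, 391, 310]
def nAL : List ℕ := [1362, 0, 1707, 0, 1930, 0, 1930, 0, 1707, 0, 1362]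
def nBL : List ℕ := [11, 116, 632, 1648, 2592, 2592, 1648, 632, 116, 11]
def nCL : List ℕ := [4, 0, 624, 0, 1262, 0, 1984, 0, 2250, 0, 1984, 0, 1262, 0, 624, 0, 4]

def kOf (i : ℕ) : ℤ := kL.getD i 0
def aOf (i : ℕ) : ℤ := aL.getD i 0
def cnt (i : ℕ) : ℕ := cL.getD i 0
def nA (a : ℤ) : ℕ := nAL.getD (a - 28).toNat 0
def nB (b : ℤ) : ℕ := nBL.getD (b - 18).toNat 0
def nC (c : ℤ) : ℕ := nCL.getD (c - 4).toNat 0

theorem hN : (9998 : ℕ) = ∑ i ∈ Finset.range 44, cnt i := by decide +kernel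
theorem hsumA : ∑ a ∈ Finset.Icc (28 : ℤ) 38, nA a ≤ 9998 := by decide +kernel
theorem hsumB : ∑ b ∈ Finset.Icc (18 : ℤ) 27, nB b ≤ 9998 := by decide +kernel
theorem hsumC : ∑ c ∈ Finset.Icc (4 : ℤ) 20, nC c ≤ 9998 := by decide +kernel
theorem hcnt : ∀ i < 44, 0 < cnt i := by decide +kernel
theorem hKm : ∀ i < 44, (33 : ℤ) ≤ kOf i ∧ kOf i ≤ 54 := by decide +kernel
theorem hAm : ∀ i < 44, (28 : ℤ) ≤ aOf i ∧ aOf i ≤ 38 := by decide +kernel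
theorem hBm : ∀ i < 44, (18 : ℤ) ≤ 2 * aOf i - kOf i ∧ 2 * aOf i - kOf i ≤ 27 := by
  decide +kernel
theorem hCm : ∀ i < 44, (4 : ℤ) ≤ 3 * aOf i - 2 * kOf i ∧ 3 * aOf i - 2 * kOf i ≤ 20 := by
  decide +kernel
theorem hnA : ∀ i < 44, 0 < nA (aOf i) := by decide +kernel
theorem hnB : ∀ i < 44, 0 < nB (2 * aOf i - kOf i) := by decide +kernel
theorem hnC : ∀ i < 44, 0 < nC (3 * aOf i - 2 * kOf i) := by decide +kernel
theorem hinj : ∀ i < 44, ∀ j < 44, kOf i = kOf j → aOf i = aOf j → i = j := by decide +kernel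
theorem hMA : 2 ^ 107147 ≤ ∏ i ∈ Finset.range 44, nA (aOf i) ^ cnt i := by decide +kernel
theorem hMB : 2 ^ 107435 ≤ ∏ i ∈ Finset.range 44, nB (2 * aOf i - kOf i) ^ cnt i := by
  decide +kernel
theorem hMC : 2 ^ 106126 ≤ ∏ i ∈ Finset.range 44, nC (3 * aOf i - 2 * kOf i) ^ cnt i := by
  decide +kernel
theorem hM1 : ∏ i ∈ Finset.range 44,
    (∑ j ∈ (Finset.range 44).filter (fun j => kOf j = kOf i), cnt j) ^ cnt i ≤ 2 ^ 88434 := by
  decide +kernel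
theorem hM2 : ∏ i ∈ Finset.range 44, cnt i ^ cnt i ≤ 2 ^ 83760 := by decide +kernel
theorem hMq : (22 : ℤ) ^ 9998 ≤ 2 ^ 44586 := by decide +kernel

/-- The certificate theorem applied to these data. -/
theorem unbounded (p₁ p₂ p₃ r : ℝ) (h₁ : 0 < p₁) (h₂ : 0 < p₂) (h₃ : 0 < p₃) (hr : 0 < r)
    (hr1 : r ≤ 1) (hH : 1 / r = 1 / p₁ + 1 / p₂ + 1 / p₃)
    (hlin : ((44586 : ℕ) : ℝ) + ((83760 : ℕ) : ℝ) + (1 / r - 1) * ((88434 : ℕ) : ℝ) <
      1 / p₁ * ((107147 : ℕ) : ℝ) + 1 / p₂ * ((107435 : ℕ) : ℝ) + 1 / p₃ * ((106126 : ℕ) : ℝ)) :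
    ¬ ∃ Cst : ℝ, ∀ (f₁ f₂ f₃ : SchwartzMap ℝ ℂ) (g : ℝ → ℂ),
      (∀ x : ℝ, Filter.Tendsto (fun q : ℝ × ℝ => ∫ t in {t : ℝ | q.1 < |t| ∧ |t| < q.2},
          f₁ (x - t) * f₂ (x - 2 * t) * f₃ (x - 3 * t) / (t : ℂ))
        ((nhdsWithin 0 (Set.Ioi 0)) ×ˢ Filter.atTop) (nhds (g x))) →
      MeasureTheory.eLpNorm g (ENNReal.ofReal r) MeasureTheory.volume ≤ ENNReal.ofReal Cst *
        MeasureTheory.eLpNorm f₁ (ENNReal.ofReal p₁) MeasureTheory.volume *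
        MeasureTheory.eLpNorm f₂ (ENNReal.ofReal p₂) MeasureTheory.volume *
        MeasureTheory.eLpNorm f₃ (ENNReal.ofReal p₃) MeasureTheory.volume :=
  Vale.Agent.Helper25.TrilinearEntropy.unbounded_of_cert 44 kOf aOf cnt 22 (by norm_num)
    28 38 18 27 4 20 33 54 (by norm_num) (by norm_num) (by norm_num)
    (by norm_num) (by norm_num) nA nB nC 9998 hN (by norm_num) hsumA hsumB hsumC hcnt hKm hAm hBm
    hCm hnA hnB hnC hinj 107147 107435 106126 88434 83760 44586 hMA hMB hMC hM1 hM2 hMq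
    p₁ p₂ p₃ r h₁ h₂ h₃ hr hr1 hH hlin

end Vale.Agent.Helper25.TrilinearCov6
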